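import Mathlib
import Vale.Agent.P095.Defs
import Vale.Agent.P095.Basic
import Vale.Agent.P095.Poly

/-!
Stage 2: generic estimates in a C*-algebra with a tracial state.
-/

noncomputable section

open Filter Topology Finset
open scoped CStarAlgebra

namespace Vale.Agent.P095.Stage2

universe u

variable {A : Type u} [CStarAlgebra A]

lemma norm_one_le : ‖(1 : A)‖ ≤ 1 := by
  rcases subsingleton_or_nontrivial A with _ | _
  · rw [Subsingleton.elim (1 : A) 0, norm_zero]; exact zero_le_one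
  · rw [norm_one]

lemma norm_symm_le {z : A} (hza : IsSelfAdjoint z) (hz : z * z = 1) : ‖z‖ ≤ 1 := by
  refine (sq_le_one_iff₀ (norm_nonneg z)).1 ?_
  rw [sq, ← CStarRing.norm_star_mul_self, hza.star_eq, hz]
  exact norm_one_le

lemma norm_mul_le' {x y : A} {a b : ℝ} (hx : ‖x‖ ≤ a) (hy : ‖y‖ ≤ b) : ‖x * y‖ ≤ a * b :=
  (norm_mul_le x y).trans (mul_le_mul hx hy (norm_nonneg y) ((norm_nonneg x).trans hx))

lemma norm_br_le {x y : A} {a b : ℝ} (hx : ‖x‖ ≤ a) (hy : ‖y‖ ≤ b) : ‖br x y‖ ≤ 2 * a * b := by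
  refine (norm_sub_le _ _).trans ?_
  linarith [norm_mul_le' hx hy, norm_mul_le' hy hx]

lemma anti_mul_left {z x y : A} (hx : z * x = -(x * z)) (hy : Commute z y) :
    z * (x * y) = -(x * y * z) := by
  rw [← mul_assoc, hx, neg_mul, mul_assoc x z y, hy.eq, mul_assoc]

lemma anti_mul_right {z x y : A} (hy : Commute z y) (hx : z * x = -(x * z)) :
    z * (y * x) = -(y * x * z) := by
  rw [← mul_assoc, hy.eq, mul_assoc y z x, hx, mul_neg, mul_assoc]

lemma commute_of_anti {z x y : A} (hx : z * x = -(x * z)) (hy : z * y = -(y * z)) :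
    Commute z (x * y) := by
  rw [Commute, SemiconjBy, ← mul_assoc, hx, neg_mul, mul_assoc x z y, hy, mul_neg, neg_neg,
    mul_assoc]

lemma norm_mean_le {ι : Type*} [Fintype ι] {x : ι → A} {M : ℝ} (hM : 0 ≤ M)
    (hx : ∀ i, ‖x i‖ ≤ M) : ‖(Fintype.card ι : ℝ)⁻¹ • ∑ i, x i‖ ≤ M := by
  rw [norm_smul, Real.norm_eq_abs, abs_of_nonneg (by positivity)]
  rcases Nat.eq_zero_or_pos (Fintype.card ι) with h | h
  · rw [h]; simpa using hM
  · have h' : (0 : ℝ) < Fintype.card ι := by exact_mod_cast h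
    rw [inv_mul_le_iff₀ h']
    exact (norm_sum_le _ _).trans ((sum_le_sum fun i _ => hx i).trans (by simp))

section Trace

variable {τ : A →ₗ[ℂ] ℂ} (hτ : IsTr τ)

include hτ

lemma flip_zero {z x Y : A} (hza : IsSelfAdjoint z) (hz : z * z = 1) (hx : z * x = -(x * z))
    (hY : Commute z Y) : τ (x * Y) = 0 := by
  have h := hτ.flip_le hz hza hx Y
  rw [show br z Y = 0 from sub_eq_zero.2 hY.eq, hτ.sn_zero, mul_zero] at h
  exact norm_le_zero_iff.1 h

lemma sn_mean_le {ι : Type*} [Fintype ι] {x : ι → A} {M : ℝ} (hM : 0 ≤ M)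
    (hx : ∀ i, sn τ (x i) ≤ M) : sn τ ((Fintype.card ι : ℝ)⁻¹ • ∑ i, x i) ≤ M := by
  rw [hτ.sn_smul_real, abs_of_nonneg (by positivity)]
  rcases Nat.eq_zero_or_pos (Fintype.card ι) with h | h
  · rw [h]; simpa using hM
  · have h' : (0 : ℝ) < Fintype.card ι := by exact_mod_cast h
    rw [inv_mul_le_iff₀ h']
    exact (hτ.sn_sum_le _ _).trans ((sum_le_sum fun i _ => hx i).trans (by simp))

/-- Orthogonal means are small. -/
lemma sn_mean_ortho {ι : Type*} [Fintype ι] {x : ι → A} {M : ℝ} (hM : 0 ≤ M)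
    (hx : ∀ i, ‖x i‖ ≤ M) (ho : ∀ i j, i ≠ j → τ (star (x i) * x j) = 0) :
    sn τ ((Fintype.card ι : ℝ)⁻¹ • ∑ i, x i) ≤ M / Real.sqrt (Fintype.card ι) := by
  set n : ℝ := (Fintype.card ι : ℝ) with hn
  have hn0 : (0 : ℝ) ≤ n := by positivity
  rw [hτ.sn_smul_real, abs_of_nonneg (by positivity)]
  have h2 : sn τ (∑ i, x i) ^ 2 ≤ n * M ^ 2 := by
    rw [hτ.sq_sn, star_sum, sum_mul, map_sum, Complex.re_sum]
    calc ∑ i, (τ (star (x i) * ∑ j, x j)).re ≤ ∑ _i : ι, M ^ 2 := by
          refine sum_le_sum fun i _ => ?_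
          rw [mul_sum, map_sum, sum_eq_single i (fun j _ hj => ho i j hj.symm) (by simp),
            ← hτ.sq_sn]
          exact pow_le_pow_left₀ (sn_nonneg _) ((hτ.sn_le_norm _).trans (hx i)) 2
      _ = n * M ^ 2 := by simp [hn]
  rcases hn0.eq_or_lt with h | h
  · rw [← h]; simp
  · rw [inv_mul_le_iff₀ h]
    have h3 : sn τ (∑ i, x i) ≤ Real.sqrt n * M := by
      refine (pow_le_pow_iff_left₀ (sn_nonneg _) (by positivity) two_ne_zero).1 ?_
      rw [mul_pow, Real.sq_sqrt hn0]; exact h2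
    refine h3.trans_eq ?_
    have hs : Real.sqrt n ≠ 0 := by positivity
    field_simp
    rw [Real.sq_sqrt hn0]
    ring

/-- The square of a symmetrised linear combination with almost commuting entries. -/
lemma sn_lin_sq {ι : Type*} [Fintype ι] {w X : ι → A} {K : ι → ι → A} {L s δ η : ℝ} (hL : 0 ≤ L)
    (hs : 0 ≤ s) (hδ : 0 ≤ δ) (hw : ∀ a, ‖w a‖ ≤ L) (hX : ∀ a, ‖X a‖ ≤ s)
    (hwX : ∀ a b, ‖br (w a) (X b)‖ ≤ δ) (hww : ∀ a b, ‖br (w a) (w b)‖ ≤ δ)
    (hK : ∀ a b, sn τ ((2 : ℝ)⁻¹ • (X a * X b + X b * X a) - K a b) ≤ η) :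
    sn τ (lin w X * lin w X - ∑ a, ∑ b, w a * w b * K a b) ≤
      (Fintype.card ι : ℝ) ^ 2 * (L ^ 2 * η + δ * (2 * L * s + s * s)) := by
  set m : ℝ := (Fintype.card ι : ℝ) with hm
  have e1 : ∀ a, (2 : ℝ)⁻¹ • (w a * X a + X a * w a) = w a * X a - (2 : ℝ)⁻¹ • br (w a) (X a) := by
    intro a
    simp only [br, smul_sub, smul_add]
    module
  set Y := ∑ a, w a * X a with hY
  have eT : lin w X - Y = -∑ a, (2 : ℝ)⁻¹ • br (w a) (X a) := by
    rw [lin, smul_sum]
    simp only [e1, sum_sub_distrib, hY]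
    abel
  have hY1 : ‖Y‖ ≤ m * (L * s) :=
    (norm_sum_le _ _).trans ((sum_le_sum fun a _ => norm_mul_le' (hw a) (hX a)).trans
      (by simp [hm]))
  have hT1 : ‖lin w X‖ ≤ m * (L * s) := by
    rw [lin, norm_smul]
    refine le_trans (mul_le_mul_of_nonneg_left ((norm_sum_le _ _).trans (sum_le_sum fun a _ =>
      (norm_add_le _ _).trans (add_le_add (norm_mul_le' (hw a) (hX a))
        (norm_mul_le' (hX a) (hw a))))) (norm_nonneg _)) (le_of_eq ?_)
    simp [hm]; ring
  have hd : ‖lin w X - Y‖ ≤ m * (δ / 2) := by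
    rw [eT, norm_neg]
    refine (norm_sum_le _ _).trans ((sum_le_sum fun a _ => (norm_smul _ _).le.trans
      (mul_le_mul_of_nonneg_left (hwX a a) (norm_nonneg _))).trans (le_of_eq ?_))
    rw [sum_const, card_univ, nsmul_eq_mul, ← hm, norm_inv, Real.norm_eq_abs, abs_two]
    ring
  have hTY : ‖lin w X * lin w X - Y * Y‖ ≤ m ^ 2 * (δ * (L * s)) := by
    have he : lin w X * lin w X - Y * Y = (lin w X - Y) * lin w X + Y * (lin w X - Y) := by
      noncomm_ring
    rw [he]
    refine (norm_add_le _ _).trans ?_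
    have := norm_mul_le' hd hT1
    have := norm_mul_le' hY1 hd
    nlinarith
  have hY2 : ‖Y * Y - ∑ a, ∑ b, w a * w b * (X a * X b)‖ ≤ m ^ 2 * (δ * (L * s)) := by
    have he : Y * Y - ∑ a, ∑ b, w a * w b * (X a * X b)
        = -∑ a, ∑ b, w a * br (w b) (X a) * X b := by
      rw [hY, sum_mul, ← sum_sub_distrib, ← sum_neg_distrib]
      refine sum_congr rfl fun a _ => ?_
      rw [mul_sum, ← sum_sub_distrib, ← sum_neg_distrib]
      refine sum_congr rfl fun b _ => ?_
      simp only [br]; noncomm_ring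
    rw [he, norm_neg]
    refine (norm_sum_le _ _).trans ((sum_le_sum fun a _ => (norm_sum_le _ _).trans
      (sum_le_sum fun b _ => norm_mul_le' (norm_mul_le' (hw a) (hwX b a)) (hX b))).trans
        (le_of_eq ?_))
    simp [hm]; ring
  set M := fun a b => (2 : ℝ)⁻¹ • (X a * X b + X b * X a) with hM
  have hY3 : ‖(∑ a, ∑ b, w a * w b * (X a * X b)) - ∑ a, ∑ b, w a * w b * M a b‖
      ≤ m ^ 2 * (δ * (s * s)) := by
    have he : (∑ a, ∑ b, w a * w b * (X a * X b)) - ∑ a, ∑ b, w a * w b * M a b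
        = (2 : ℝ)⁻¹ • ∑ a, ∑ b, br (w a) (w b) * (X a * X b) := by
      have hc : ∑ a, ∑ b, w a * w b * (X b * X a) = ∑ a, ∑ b, w b * w a * (X a * X b) := sum_comm
      simp only [hM, br, mul_smul_comm, sub_mul, mul_add, sum_add_distrib, sum_sub_distrib,
        ← smul_sum, smul_add, smul_sub, hc]
      module
    rw [he, norm_smul]
    refine le_trans (mul_le_mul_of_nonneg_left ((norm_sum_le _ _).trans (sum_le_sum fun a _ =>
      (norm_sum_le _ _).trans (sum_le_sum fun b _ => norm_mul_le' (hww a b)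
        (norm_mul_le' (hX a) (hX b))))) (norm_nonneg _)) ?_
    simp [hm]
    nlinarith [show 0 ≤ m * (m * (δ * (s * s))) by positivity]
  have hY4 : sn τ ((∑ a, ∑ b, w a * w b * M a b) - ∑ a, ∑ b, w a * w b * K a b)
      ≤ m ^ 2 * (L ^ 2 * η) := by
    simp only [← sum_sub_distrib, ← mul_sub]
    refine (hτ.sn_sum_le _ _).trans ((sum_le_sum fun a _ => (hτ.sn_sum_le _ _).trans
      (sum_le_sum fun b _ => (hτ.sn_mul_le_left _ _).trans
        (mul_le_mul (norm_mul_le' (hw a) (hw b)) (hK a b) (sn_nonneg _) (mul_nonneg hL hL)))).trans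
          (le_of_eq ?_))
    simp [hm]; ring
  have he : lin w X * lin w X - ∑ a, ∑ b, w a * w b * K a b
      = (lin w X * lin w X - Y * Y) + (Y * Y - ∑ a, ∑ b, w a * w b * (X a * X b))
        + ((∑ a, ∑ b, w a * w b * (X a * X b)) - ∑ a, ∑ b, w a * w b * M a b)
        + ((∑ a, ∑ b, w a * w b * M a b) - ∑ a, ∑ b, w a * w b * K a b) := by abel
  rw [he]
  refine (hτ.sn_add_le _ _).trans ?_
  refine le_trans (add_le_add ((hτ.sn_le_norm _).trans
    ((norm_add_le _ _).trans (add_le_add ((norm_add_le _ _).trans (add_le_add hTY hY2)) hY3))) hY4) ?_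
  nlinarith

end Trace

/-! ## Clipping by the odd function 2t/(1+t^2) -/

section Clip

/-- The resolvent of the square. -/
def res (T : A) : A := cfc (fun t : ℝ => (1 + t ^ 2)⁻¹) T

/-- The clipped element. -/
def clip (T : A) : A := (2 : ℝ) • (T * res T)

lemma cont_res : Continuous fun t : ℝ => (1 + t ^ 2)⁻¹ :=
  (continuous_const.add (continuous_pow 2)).inv₀ fun t => ne_of_gt (show (0:ℝ) < 1 + t ^ 2 by positivity)

variable {T : A}

lemma res_sa : IsSelfAdjoint (res T) := cfc_predicate _ T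

lemma one_add_mul_res (hT : IsSelfAdjoint T) : (1 + T * T) * res T = 1 := by
  have e : 1 + T * T = cfc (fun t : ℝ => 1 + t ^ 2) T := by
    rw [cfc_const_add (R := ℝ) 1 (fun t => t ^ 2) T ((continuous_pow 2).continuousOn) hT,
      cfc_pow_id T 2 hT, map_one, sq]
  rw [e, res, ← cfc_mul (fun t : ℝ => 1 + t ^ 2) (fun t : ℝ => (1 + t ^ 2)⁻¹) T
    (continuous_const.add (continuous_pow 2)).continuousOn cont_res.continuousOn]
  rw [cfc_congr (g := fun _ => (1 : ℝ)) fun t _ => mul_inv_cancel₀ (by positivity), cfc_const_one ℝ T hT]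

lemma res_mul_one_add (hT : IsSelfAdjoint T) : res T * (1 + T * T) = 1 := by
  have h := congrArg star (one_add_mul_res hT)
  rwa [star_mul, star_one, star_add, star_one, star_mul, hT.star_eq, res_sa.star_eq] at h

lemma norm_res (_hT : IsSelfAdjoint T) : ‖res T‖ ≤ 1 :=
  norm_cfc_le zero_le_one fun t _ => by
    rw [Real.norm_eq_abs, abs_of_nonneg (by positivity)]
    exact inv_le_one_of_one_le₀ (by nlinarith)

lemma norm_mul_res (hT : IsSelfAdjoint T) : ‖T * res T‖ ≤ 1 / 2 := by
  have e : T * res T = cfc (fun t : ℝ => t * (1 + t ^ 2)⁻¹) T := by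
    conv_lhs => arg 1; rw [← cfc_id' ℝ T hT]
    rw [res, ← cfc_mul (fun t : ℝ => t) (fun t : ℝ => (1 + t ^ 2)⁻¹) T continuous_id.continuousOn
      cont_res.continuousOn]
  rw [e]
  refine norm_cfc_le (by norm_num) fun t _ => ?_
  rw [Real.norm_eq_abs, abs_mul, abs_of_nonneg (show 0 ≤ (1 + t ^ 2)⁻¹ by positivity),
    ← div_eq_mul_inv, div_le_iff₀ (by positivity)]
  nlinarith [sq_nonneg (|t| - 1), sq_abs t]

/-- Commutation with the square passes to the resolvent. -/
lemma commute_res (hT : IsSelfAdjoint T) {s : A} (h : Commute s (T * T)) : Commute s (res T) := by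
  have h1 : Commute s (1 + T * T) := (Commute.one_right s).add_right h
  calc s * res T = res T * (1 + T * T) * (s * res T) := by rw [res_mul_one_add hT, one_mul]
    _ = res T * ((1 + T * T) * s) * res T := by simp only [mul_assoc]
    _ = res T * (s * (1 + T * T)) * res T := by rw [h1.eq]
    _ = res T * s * ((1 + T * T) * res T) := by simp only [mul_assoc]
    _ = res T * s := by rw [one_add_mul_res hT, mul_one]

lemma commute_T_res (hT : IsSelfAdjoint T) : Commute T (res T) :=
  commute_res hT ((Commute.refl T).mul_right (Commute.refl T))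

lemma clip_sa (hT : IsSelfAdjoint T) : IsSelfAdjoint (clip T) :=
  (IsSelfAdjoint.all _).smul ((IsSelfAdjoint.commute_iff hT res_sa).1 (commute_T_res hT))

lemma norm_clip (hT : IsSelfAdjoint T) : ‖clip T‖ ≤ 1 := by
  rw [clip, norm_smul, Real.norm_eq_abs, abs_two]
  linarith [norm_mul_res hT]

lemma commute_clip (hT : IsSelfAdjoint T) {s : A} (h : Commute s T) : Commute s (clip T) :=
  (h.mul_right (commute_res hT (h.mul_right h))).smul_right _

lemma anti_clip (hT : IsSelfAdjoint T) {U : A} (h : U * T = -(T * U)) :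
    U * clip T = -(clip T * U) := by
  rw [clip, mul_smul_comm, smul_mul_assoc, ← smul_neg]
  congr 1
  exact anti_mul_left h (commute_res hT (commute_of_anti h h))

lemma map_res {B : Type u} [CStarAlgebra B] (f : A ≃⋆ₐ[ℂ] B) (hT : IsSelfAdjoint T) :
    f (res T) = res (f T) := by
  have hf : IsSelfAdjoint (f T) := hT.map f
  have h := congrArg f (one_add_mul_res hT)
  rw [map_mul, map_add, map_one, map_mul] at h
  calc f (res T) = res (f T) * (1 + f T * f T) * f (res T) := by rw [res_mul_one_add hf, one_mul]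
    _ = res (f T) := by rw [mul_assoc, h, mul_one]

lemma map_clip {B : Type u} [CStarAlgebra B] (f : A ≃⋆ₐ[ℂ] B) (hT : IsSelfAdjoint T) :
    f (clip T) = clip (f T) := by
  rw [clip, clip, ← Complex.coe_smul, map_smul, Complex.coe_smul, map_mul, map_res f hT]

variable {τ : A →ₗ[ℂ] ℂ} (hτ : IsTr τ)

include hτ

lemma sn_clip_sq (hT : IsSelfAdjoint T) :
    sn τ (clip T * clip T - 1) ≤ 2 * sn τ (T * T - 1) := by
  have h2 : Commute T (res T) := commute_T_res hT
  have e : clip T * clip T - 1 = -((res T * (T * T - 1)) * (res T * (T * T - 1))) := by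
    have h3 : Commute (res T) (T * T - 1) := ((h2.mul_left h2).sub_left (Commute.one_left _)).symm
    have hone : (1 + T * T) * res T * ((1 + T * T) * res T) = 1 := by
      rw [one_add_mul_res hT, one_mul]
    have hA : Commute (res T) (1 + T * T) := by rw [Commute, SemiconjBy, res_mul_one_add hT, one_add_mul_res hT]
    have e1 : clip T * clip T = (4 : ℝ) • ((T * T) * (res T * res T)) := by
      rw [clip, smul_mul_assoc, mul_smul_comm, smul_smul, h2.symm.mul_mul_mul_comm T (res T)]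
      norm_num
    rw [hA.mul_mul_mul_comm] at hone
    rw [h3.symm.mul_mul_mul_comm (res T), e1, ← smul_mul_assoc]
    conv_rhs => rw [(h3.mul_left h3 |>.mul_right (h3.mul_left h3)).eq]
    calc (4 : ℝ) • (T * T) * (res T * res T) - 1
        = ((4 : ℝ) • (T * T) - (1 + T * T) * (1 + T * T)) * (res T * res T) := by
          rw [sub_mul, hone]
      _ = -((T * T - 1) * (T * T - 1)) * (res T * res T) := by
          congr 1
          simp only [mul_add, add_mul, mul_sub, sub_mul, one_mul, mul_one, mul_assoc]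
          module
      _ = _ := neg_mul _ _
  have hn : ‖res T * (T * T - 1) * res T‖ ≤ 2 := by
    have he : res T * (T * T - 1) * res T = res T - (2 : ℝ) • (res T * res T) := by
      have : T * T - 1 = (1 + T * T) - (2 : ℝ) • (1 : A) := by rw [two_smul]; abel
      rw [this, mul_sub, res_mul_one_add hT, sub_mul, one_mul, mul_smul_comm, mul_one,
        smul_mul_assoc]
    rcases subsingleton_or_nontrivial A with _ | _
    · rw [Subsingleton.elim (res T * (T * T - 1) * res T) 0, norm_zero]; norm_num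
    have he2 : res T * (T * T - 1) * res T = cfc (fun t : ℝ => (1 + t ^ 2)⁻¹ - 2 * ((1 + t ^ 2)⁻¹ * (1 + t ^ 2)⁻¹)) T := by
      rw [he, res, cfc_sub (fun t : ℝ => (1 + t ^ 2)⁻¹)
        (fun t : ℝ => 2 * ((1 + t ^ 2)⁻¹ * (1 + t ^ 2)⁻¹)) T cont_res.continuousOn
        (continuous_const.mul (cont_res.mul cont_res)).continuousOn,
        cfc_const_mul (2 : ℝ) (fun t : ℝ => (1 + t ^ 2)⁻¹ * (1 + t ^ 2)⁻¹) T
          (cont_res.mul cont_res).continuousOn,
        cfc_mul (fun t : ℝ => (1 + t ^ 2)⁻¹) (fun t : ℝ => (1 + t ^ 2)⁻¹) T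
          cont_res.continuousOn cont_res.continuousOn]
    rw [he2]
    refine norm_cfc_le (by norm_num) fun t _ => ?_
    have h0 : 0 ≤ (1 + t ^ 2)⁻¹ := by positivity
    have h1 : (1 + t ^ 2)⁻¹ ≤ 1 := inv_le_one_of_one_le₀ (by nlinarith)
    rw [Real.norm_eq_abs, abs_le]
    constructor <;> nlinarith
  rw [e, hτ.sn_neg, ← mul_assoc]
  exact (hτ.sn_mul_le_left _ _).trans (mul_le_mul_of_nonneg_right hn (sn_nonneg _))

lemma sn_clip_sub {T' : A} (hT : IsSelfAdjoint T) (hT' : IsSelfAdjoint T') :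
    sn τ (clip T - clip T') ≤ 3 * sn τ (T - T') := by
  have key : T * res T - T' * res T'
      = res T' * (T - T') * res T + T' * res T' * (T' - T) * (T * res T) := by
    calc T * res T - T' * res T'
        = res T' * (1 + T' * T') * T * res T - res T' * T' * ((1 + T * T) * res T) := by
          rw [res_mul_one_add hT', one_add_mul_res hT, one_mul, mul_one, (commute_T_res hT').eq]
      _ = res T' * (T - T') * res T + res T' * T' * (T' - T) * (T * res T) := by noncomm_ring
      _ = _ := by rw [(commute_T_res hT').eq]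
  rw [clip, clip, ← smul_sub, hτ.sn_smul_real, abs_two, key]
  have h1 : sn τ (res T' * (T - T') * res T) ≤ sn τ (T - T') := by
    refine (hτ.sn_mul_le_right _ _).trans
      ((mul_le_of_le_one_right (sn_nonneg _) (norm_res hT)).trans ?_)
    exact (hτ.sn_mul_le_left _ _).trans (mul_le_of_le_one_left (sn_nonneg _) (norm_res hT'))
  have h2 : sn τ (T' * res T' * (T' - T) * (T * res T)) ≤ sn τ (T - T') / 4 := by
    refine (hτ.sn_mul_le_right _ _).trans ((mul_le_mul ((hτ.sn_mul_le_left _ _).trans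
      (mul_le_mul_of_nonneg_right (norm_mul_res hT') (sn_nonneg _))) (norm_mul_res hT)
        (norm_nonneg _) (mul_nonneg (by norm_num) (sn_nonneg _))).trans (le_of_eq ?_))
    rw [hτ.sn_sub_comm T' T]; ring
  linarith [hτ.sn_add_le (res T' * (T - T') * res T) (T' * res T' * (T' - T) * (T * res T)),
    sn_nonneg (τ := τ) (T - T')]

end Clip

end Vale.Agent.P095.Stage2
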