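import Mathlib
import Vale.Agent.P095.Defs
import Vale.Agent.P095.Basic

/-!
Stage 2: one infinite sequence of units (invariant symmetry U, odd element o, invariant fair
symmetry u), obtained greedily from odd pairs.
-/

noncomputable section

open Filter Topology

namespace Vale.Agent.P095.Stage2

universe u v

variable {G : Type v} [Group G] {A : Type u} [CStarAlgebra A] (c : Cfg G A)

lemma act_norm (g : G) (x : A) : ‖c.act g x‖ = ‖x‖ := StarAlgEquiv.norm_map (c.act g) x

lemma act_inv_act (g : G) (x : A) : c.act g⁻¹ (c.act g x) = x := by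
  rw [← c.act_mul, inv_mul_cancel, c.act_one]

lemma act_act_inv (g : G) (x : A) : c.act g (c.act g⁻¹ x) = x := by
  rw [← c.act_mul, mul_inv_cancel, c.act_one]

/-- Commutation with every translate passes to commutation of translates. -/
lemma commute_act {x y : A} (h : ∀ g, Commute x (c.act g y)) (a b : G) :
    Commute (c.act a x) (c.act b y) := by
  have := (h (a⁻¹ * b)).map (c.act a)
  rwa [← c.act_mul a (a⁻¹ * b), mul_inv_cancel_left] at this

/-- All translates of the elements of a set. -/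
def orbit (X : Set A) : Set A := ⋃ g : G, c.act g '' X

lemma mem_orbit {X : Set A} {x : A} (hx : x ∈ X) (g : G) : c.act g x ∈ orbit c X :=
  Set.mem_iUnion.2 ⟨g, x, hx, rfl⟩

/-- The monoid generated by all translates. -/
def gen (X : Set A) : Set A := Submonoid.closure (orbit c X)

lemma orbit_mem_gen {X : Set A} {x : A} (hx : x ∈ X) (g : G) : c.act g x ∈ gen c X :=
  Submonoid.subset_closure (mem_orbit c hx g)

lemma self_mem_gen {X : Set A} {x : A} (hx : x ∈ X) : x ∈ gen c X := by
  have := orbit_mem_gen c hx 1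
  rwa [c.act_one] at this

lemma mul_mem_gen {X : Set A} {x y : A} (hx : x ∈ gen c X) (hy : y ∈ gen c X) :
    x * y ∈ gen c X :=
  Submonoid.mul_mem _ hx hy

lemma one_mem_gen (X : Set A) : (1 : A) ∈ gen c X := Submonoid.one_mem _

lemma gen_countable [Countable G] {X : Set A} (hX : X.Countable) : (gen c X).Countable := by
  have : Countable (orbit c X) := (Set.countable_iUnion fun g => hX.image _).to_subtype
  rw [gen, Submonoid.closure_eq_mrange, MonoidHom.coe_mrange]
  exact Set.countable_range _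

/-- Greedy sequences. -/
lemma exists_greedy {α : Type*} (P : List α → α → Prop) (h : ∀ l, ∃ a, P l a) :
    ∃ f : ℕ → α, ∀ n, P ((List.range n).map f) (f n) := by
  let l : ℕ → List α := fun n => Nat.rec [] (fun _ l => l ++ [(h l).choose]) n
  refine ⟨fun n => (h (l n)).choose, fun n => ?_⟩
  have hl : ∀ n, (List.range n).map (fun n => (h (l n)).choose) = l n := by
    intro n
    induction n with
    | zero => rfl
    | succ n ih => rw [List.range_succ, List.map_append, ih]; rfl
  rw [hl]
  exact (h (l n)).choose_spec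

/-- A sequence of units over a set S. -/
structure Units (S : Set A) where
  U : ℕ → A
  o : ℕ → A
  u : ℕ → A
  saU : ∀ k, IsSelfAdjoint (U k)
  sao : ∀ k, IsSelfAdjoint (o k)
  sau : ∀ k, IsSelfAdjoint (u k)
  sqU : ∀ k, U k * U k = 1
  squ : ∀ k, u k * u k = 1
  norm_o : ∀ k, ‖o k‖ ≤ 2
  invU : ∀ g k, c.act g (U k) = U k
  invu : ∀ g k, c.act g (u k) = u k
  odd : ∀ k g, U k * c.act g (o k) = -(c.act g (o k) * U k)
  comm_UU : ∀ k l, Commute (U k) (U l)
  comm_Uo : ∀ k l, k ≠ l → ∀ g, Commute (U k) (c.act g (o l))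
  comm_oo : ∀ k l, k ≠ l → ∀ g h, Commute (c.act g (o k)) (c.act h (o l))
  comm_uu : ∀ k l, Commute (u k) (u l)
  comm_uU : ∀ k l, Commute (u k) (U l)
  comm_uo : ∀ k l g, Commute (u k) (c.act g (o l))
  comm_S : ∀ s ∈ S, ∀ k, Commute s (U k) ∧ Commute s (u k) ∧ ∀ g, Commute s (c.act g (o k))
  fairo : ∀ τ ∈ c.T, ∀ k g, τ (c.act g (o k * o k)) = 1 / 2
  fairo₂ : ∀ τ ∈ c.T, ∀ k l, k ≠ l → ∀ g h,
    τ (c.act g (o k * o k) * c.act h (o l * o l)) = 1 / 4
  fairu : ∀ τ ∈ c.T, ∀ k l, k ≠ l → ∀ g₁ g₂ g₃ g₄,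
    τ (u k * u l * (c.act g₁ (o k) * c.act g₂ (o k) * (c.act g₃ (o l) * c.act g₄ (o l)))) = 0

/-- Fairness passes to translates. -/
lemma fair_act {X : Set A} {U o : A} (hp : OddPair c X U o) {τ : A →ₗ[ℂ] ℂ} (hτ : τ ∈ c.T) (g : G)
    {y : A} (hy : c.act g⁻¹ y ∈ X) : τ (c.act g (o * o) * y) = τ y / 2 := by
  obtain ⟨σ, hσ, hs⟩ := c.inv τ hτ g
  have h1 := hs (o * o * c.act g⁻¹ y)
  rw [map_mul (c.act g), act_act_inv] at h1
  rw [← h1, (c.tr σ hσ).comm, hp.fairo σ hσ _ hy, hs, act_act_inv]

theorem exists_units [Countable G] (hO : ∀ S : Set A, S.Countable → ∃ U o, OddPair c S U o)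
    {S : Set A} (hS : S.Countable) : Nonempty (Units c S) := by
  classical
  -- first the pairs (U, o)
  let base : List (A × A) → Set A := fun l => S ∪ {x | x ∈ l.map Prod.fst ∨ x ∈ l.map Prod.snd}
  have hbase : ∀ l, (base l).Countable := fun l =>
    hS.union ((List.finite_toSet _).union (List.finite_toSet _)).countable
  obtain ⟨f, hf⟩ := exists_greedy (fun l p => OddPair c (gen c (base l)) p.1 p.2) fun l => by
    obtain ⟨U, o, h⟩ := hO _ (gen_countable c (hbase l))
    exact ⟨(U, o), h⟩
  set U : ℕ → A := fun k => (f k).1 with hU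
  set o : ℕ → A := fun k => (f k).2 with ho
  -- then the fair symmetries
  set X : Set A := S ∪ (Set.range U ∪ Set.range o) with hX
  have hXc : X.Countable := hS.union ((Set.countable_range _).union (Set.countable_range _))
  obtain ⟨u, hu⟩ := exists_greedy (fun l w => ∃ o', OddPair c (gen c (X ∪ {x | x ∈ l})) w o')
    fun l => by
      obtain ⟨w, o', h⟩ := hO _ (gen_countable c (hXc.union (List.finite_toSet l).countable))
      exact ⟨w, o', h⟩
  choose o' hu using hu
  have hmemU : ∀ {k l}, l < k → ∀ g, c.act g (U l) ∈ gen c (base ((List.range k).map f)) :=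
    fun {k l} hl g => orbit_mem_gen c (Or.inr (Or.inl (by
      simp only [List.map_map, List.mem_map, List.mem_range]
      exact ⟨l, hl, rfl⟩))) g
  have hmemo : ∀ {k l}, l < k → ∀ g, c.act g (o l) ∈ gen c (base ((List.range k).map f)) :=
    fun {k l} hl g => orbit_mem_gen c (Or.inr (Or.inr (by
      simp only [List.map_map, List.mem_map, List.mem_range]
      exact ⟨l, hl, rfl⟩))) g
  have hmemX : ∀ {k x}, x ∈ X → ∀ g, c.act g x ∈ gen c (X ∪ {x | x ∈ (List.range k).map u}) :=
    fun {k x} hx g => orbit_mem_gen c (Or.inl hx) g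
  have hmemu : ∀ {k l}, l < k → u l ∈ gen c (X ∪ {x | x ∈ (List.range k).map u}) :=
    fun {k l} hl => self_mem_gen c (Or.inr (by
      simp only [List.mem_map, List.mem_range, Set.mem_ofPred_eq]
      exact ⟨l, hl, rfl⟩))
  have hoX : ∀ l, o l ∈ X := fun l => Or.inr (Or.inr ⟨l, rfl⟩)
  have hUX : ∀ l, U l ∈ X := fun l => Or.inr (Or.inl ⟨l, rfl⟩)
  have hinvU : ∀ g k, c.act g (U k) = U k := fun g k => (hf k).inv g
  have cUU : ∀ k l, Commute (U k) (U l) := by
    intro k l
    rcases lt_trichotomy l k with h | h | h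
    · have := (hf k).comm_U _ (hmemU h 1); rwa [c.act_one] at this
    · rw [h]
    · have := (hf l).comm_U _ (hmemU h 1); rw [c.act_one] at this; exact this.symm
  have cUo : ∀ k l, k ≠ l → ∀ g, Commute (U k) (c.act g (o l)) := by
    intro k l hkl g
    rcases lt_or_gt_of_ne hkl with h | h
    · have := ((hf l).comm_o _ (hmemU h 1)).map (c.act g)
      rw [c.act_one, hinvU] at this
      exact this.symm
    · exact (hf k).comm_U _ (hmemo h g)
  have coo : ∀ k l, k ≠ l → ∀ g h, Commute (c.act g (o k)) (c.act h (o l)) := by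
    intro k l hkl g h
    rcases lt_or_gt_of_ne hkl with hl | hl
    · exact (commute_act c (fun a => (hf l).comm_o _ (hmemo hl a)) h g).symm
    · exact commute_act c (fun a => (hf k).comm_o _ (hmemo hl a)) g h
  have cuu : ∀ k l, Commute (u k) (u l) := by
    intro k l
    rcases lt_trichotomy l k with h | h | h
    · exact (hu k).comm_U _ (hmemu h)
    · rw [h]
    · exact ((hu l).comm_U _ (hmemu h)).symm
  refine ⟨{
    U := U, o := o, u := u
    saU := fun k => (hf k).saU
    sao := fun k => (hf k).sao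
    sau := fun k => (hu k).saU
    sqU := fun k => (hf k).sq
    squ := fun k => (hu k).sq
    norm_o := fun k => (hf k).norm_le
    invU := hinvU
    invu := fun g k => (hu k).inv g
    odd := ?_
    comm_UU := cUU
    comm_Uo := cUo
    comm_oo := coo
    comm_uu := cuu
    comm_uU := ?_
    comm_uo := fun k l g => (hu k).comm_U _ (hmemX (hoX l) g)
    comm_S := ?_
    fairo := ?_
    fairo₂ := ?_
    fairu := ?_ }⟩
  · intro k g
    have := congrArg (c.act g) (hf k).odd
    rwa [map_mul, map_neg, map_mul, hinvU] at this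
  · intro k l
    have := (hu k).comm_U _ (hmemX (hUX l) 1)
    rwa [c.act_one] at this
  · intro s hs k
    refine ⟨((hf k).comm_U s (self_mem_gen c (Or.inl hs))).symm,
      ((hu k).comm_U s (self_mem_gen c (Or.inl (Or.inl hs)))).symm, fun g => ?_⟩
    have := ((hf k).comm_o _ (orbit_mem_gen c (Or.inl hs) g⁻¹)).map (c.act g)
    rw [act_act_inv] at this
    exact this.symm
  · intro τ hτ k g
    have := fair_act c (hf k) hτ g (y := 1) (by rw [map_one]; exact one_mem_gen c _)
    rwa [mul_one, (c.tr τ hτ).map_one] at this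
  · have key : ∀ τ ∈ c.T, ∀ k l, l < k → ∀ g h,
        τ (c.act g (o k * o k) * c.act h (o l * o l)) = 1 / 4 := by
      intro τ hτ k l hl g h
      have h1 := fair_act c (hf k) hτ g (y := c.act h (o l * o l)) (by
        rw [← c.act_mul, map_mul]
        exact mul_mem_gen c (hmemo hl _) (hmemo hl _))
      have h2 := fair_act c (hf l) hτ h (y := 1) (by rw [map_one]; exact one_mem_gen c _)
      rw [mul_one, (c.tr τ hτ).map_one] at h2
      rw [h1, h2]; norm_num
    intro τ hτ k l hkl g h
    rcases lt_or_gt_of_ne hkl with hl | hl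
    · rw [(c.tr τ hτ).comm]; exact key τ hτ l k hl h g
    · exact key τ hτ k l hl g h
  · intro τ hτ k l hkl g₁ g₂ g₃ g₄
    have ho' : ∀ (m j : ℕ) (g : G), c.act g (o j) ∈ gen c (X ∪ {x | x ∈ (List.range m).map u}) :=
      fun m j g => hmemX (hoX j) g
    rcases lt_or_gt_of_ne hkl with hl | hl
    · have := (hu l).fairU τ hτ (c.act g₁ (o k) * c.act g₂ (o k) * (c.act g₃ (o l) * c.act g₄ (o l))
        * u k) (mul_mem_gen c (mul_mem_gen c (mul_mem_gen c (ho' _ _ _) (ho' _ _ _))
          (mul_mem_gen c (ho' _ _ _) (ho' _ _ _))) (hmemu hl))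
      rwa [mul_assoc, (c.tr τ hτ).comm] at this
    · have := (hu k).fairU τ hτ (c.act g₁ (o k) * c.act g₂ (o k) * (c.act g₃ (o l) * c.act g₄ (o l))
        * u l) (mul_mem_gen c (mul_mem_gen c (mul_mem_gen c (ho' _ _ _) (ho' _ _ _))
          (mul_mem_gen c (ho' _ _ _) (ho' _ _ _))) (hmemu hl))
      rwa [mul_assoc, (c.tr τ hτ).comm, (cuu l k).eq] at this

end Vale.Agent.P095.Stage2
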