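import Mathlib
import Vale.Agent.P095.Stage2.Units
import Vale.Agent.P095.Stage2.Algebra

/-!
Stage 2: the summands of the blocks and the signs between blocks.
-/

noncomputable section

open Filter Topology Finset

namespace Vale.Agent.P095.Stage2

universe u v

variable {G : Type v} [Group G] {A : Type u} [CStarAlgebra A] {c : Cfg G A} {S : Set A}

namespace Units

variable (W : Units c S)

/-- The product of two translates of one odd element. -/
def aa (m : ℕ) (g h : G) : A := c.act g (W.o m) * c.act h (W.o m)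

/-- A summand. -/
def v (m n : ℕ) (g : G) : A :=
  (1 + W.u m) * (1 - W.u n) * (c.act g (W.o m) * c.act g (W.o n))

/-- The sign of one unit. -/
def F (m : ℕ) : A := (2 : ℝ)⁻¹ • ((1 + W.u m) * W.U m + (1 - W.u m))

/-- The product of the signs of the first n units. -/
def Q : ℕ → A
  | 0 => 1
  | n + 1 => Q n * W.F n

/-! ### Elementary facts -/

lemma norm_act_o (g : G) (m : ℕ) : ‖c.act g (W.o m)‖ ≤ 2 := by
  rw [act_norm]; exact W.norm_o m

lemma norm_one_add_u (m : ℕ) : ‖1 + W.u m‖ ≤ 2 := by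
  linarith [norm_add_le (1 : A) (W.u m), norm_one_le (A := A), norm_symm_le (W.sau m) (W.squ m)]

lemma norm_one_sub_u (m : ℕ) : ‖1 - W.u m‖ ≤ 2 := by
  linarith [norm_sub_le (1 : A) (W.u m), norm_one_le (A := A), norm_symm_le (W.sau m) (W.squ m)]

lemma norm_v (m n : ℕ) (g : G) : ‖W.v m n g‖ ≤ 16 :=
  (norm_mul_le' (norm_mul_le' (W.norm_one_add_u m) (W.norm_one_sub_u n))
    (norm_mul_le' (W.norm_act_o g m) (W.norm_act_o g n))).trans (by norm_num)

lemma norm_aa (m : ℕ) (g h : G) : ‖W.aa m g h‖ ≤ 4 :=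
  (norm_mul_le' (W.norm_act_o g m) (W.norm_act_o h m)).trans (by norm_num)

lemma star_aa (m : ℕ) (g h : G) : star (W.aa m g h) = W.aa m h g := by
  rw [aa, star_mul, ((W.sao m).map (c.act g)).star_eq, ((W.sao m).map (c.act h)).star_eq, aa]

lemma add_mul_sub_u (m : ℕ) : (1 + W.u m) * (1 - W.u m) = 0 := by
  rw [mul_sub, mul_one, add_mul, one_mul, W.squ]; abel

lemma sub_mul_add_u (m : ℕ) : (1 - W.u m) * (1 + W.u m) = 0 := by
  rw [sub_mul, one_mul, mul_add, mul_one, W.squ]; abel

lemma add_sq_u (m : ℕ) : (1 + W.u m) * (1 + W.u m) = (2 : ℝ) • (1 + W.u m) := by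
  rw [add_mul, one_mul, mul_add, mul_one, W.squ, two_smul]; abel

lemma sub_sq_u (m : ℕ) : (1 - W.u m) * (1 - W.u m) = (2 : ℝ) • (1 - W.u m) := by
  rw [sub_mul, one_mul, mul_sub, mul_one, W.squ, two_smul]; abel

lemma v_self (m : ℕ) (g : G) : W.v m m g = 0 := by
  rw [v, W.add_mul_sub_u, zero_mul]

/-- An element commuting with the ingredients commutes with a summand. -/
lemma commute_v {x : A} {m n : ℕ} {g : G} (hm : Commute x (W.u m)) (hn : Commute x (W.u n))
    (hm' : Commute x (c.act g (W.o m))) (hn' : Commute x (c.act g (W.o n))) :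
    Commute x (W.v m n g) :=
  (((Commute.one_right x).add_right hm).mul_right ((Commute.one_right x).sub_right hn)).mul_right
    (hm'.mul_right hn')

lemma commute_u_v (k m n : ℕ) (g : G) : Commute (W.u k) (W.v m n g) :=
  W.commute_v (W.comm_uu k m) (W.comm_uu k n) (W.comm_uo k m g) (W.comm_uo k n g)

lemma v_sa (m n : ℕ) (g : G) : IsSelfAdjoint (W.v m n g) := by
  rcases eq_or_ne m n with rfl | h
  · rw [W.v_self]; exact IsSelfAdjoint.zero A
  have hp : IsSelfAdjoint ((1 + W.u m) * (1 - W.u n)) :=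
    (IsSelfAdjoint.commute_iff ((IsSelfAdjoint.one A).add (W.sau m))
      ((IsSelfAdjoint.one A).sub (W.sau n))).1
      (((Commute.one_left _).add_left ((Commute.one_right _).sub_right (W.comm_uu m n))))
  have hq : IsSelfAdjoint (c.act g (W.o m) * c.act g (W.o n)) :=
    (IsSelfAdjoint.commute_iff ((W.sao m).map (c.act g)) ((W.sao n).map (c.act g))).1
      (W.comm_oo m n h g g)
  exact (IsSelfAdjoint.commute_iff hp hq).1
    (((Commute.one_left _).add_left ((W.comm_uo m m g).mul_right (W.comm_uo m n g))).mul_left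
      ((Commute.one_left _).sub_left ((W.comm_uo n m g).mul_right (W.comm_uo n n g))))

lemma act_v (h : G) (m n : ℕ) (g : G) : c.act h (W.v m n g) = W.v m n (h * g) := by
  simp [v, W.invu, c.act_mul]

lemma commute_U_v {k m n : ℕ} (hm : k ≠ m) (hn : k ≠ n) (g : G) :
    Commute (W.U k) (W.v m n g) :=
  W.commute_v (W.comm_uU m k).symm (W.comm_uU n k).symm (W.comm_Uo k m hm g) (W.comm_Uo k n hn g)

lemma U_v_left {m n : ℕ} (h : m ≠ n) (g : G) : W.U m * W.v m n g = -(W.v m n g * W.U m) :=
  anti_mul_right (((Commute.one_right _).add_right (W.comm_uU m m).symm).mul_right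
    ((Commute.one_right _).sub_right (W.comm_uU n m).symm))
    (anti_mul_left (W.odd m g) (W.comm_Uo m n h g))

lemma U_v_right {m n : ℕ} (h : m ≠ n) (g : G) : W.U n * W.v m n g = -(W.v m n g * W.U n) :=
  anti_mul_right (((Commute.one_right _).add_right (W.comm_uU m n).symm).mul_right
    ((Commute.one_right _).sub_right (W.comm_uU n n).symm))
    (anti_mul_right (W.comm_Uo n m h.symm g) (W.odd n g))

/-- Summands of units with disjoint indices commute. -/
lemma commute_v_v {m n m' n' : ℕ} (h₁ : m ≠ m') (h₂ : m ≠ n') (h₃ : n ≠ m') (h₄ : n ≠ n')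
    (g h : G) : Commute (W.v m n g) (W.v m' n' h) :=
  W.commute_v (W.commute_u_v m' m n g).symm (W.commute_u_v n' m n g).symm
    ((W.commute_v (W.comm_uo m m' h).symm (W.comm_uo n m' h).symm
      (W.comm_oo m' m h₁.symm h g) (W.comm_oo m' n h₃.symm h g)).symm)
    ((W.commute_v (W.comm_uo m n' h).symm (W.comm_uo n n' h).symm
      (W.comm_oo n' m h₂.symm h g) (W.comm_oo n' n h₄.symm h g)).symm)

/-- Opposite summands multiply to zero. -/
lemma v_mul_swap (m n : ℕ) (g h : G) : W.v m n g * W.v n m h = 0 := by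
  have e : W.v m n g * W.v n m h = (c.act g (W.o m) * c.act g (W.o n)) *
      ((1 + W.u m) * (1 - W.u n) * ((1 + W.u n) * (1 - W.u m))) *
        (c.act h (W.o n) * c.act h (W.o m)) := by
    have hc : Commute ((1 + W.u m) * (1 - W.u n)) (c.act g (W.o m) * c.act g (W.o n)) :=
      ((Commute.one_left _).add_left ((W.comm_uo m m g).mul_right (W.comm_uo m n g))).mul_left
        ((Commute.one_left _).sub_left ((W.comm_uo n m g).mul_right (W.comm_uo n n g)))
    rw [v, v, hc.eq]
    simp only [mul_assoc]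
  rw [e, mul_assoc (1 + W.u m), ← mul_assoc (1 - W.u n), W.sub_mul_add_u]
  simp

/-- The product of two summands of one pair. -/
lemma v_mul_v (m n : ℕ) (g h : G) : W.v m n g * W.v m n h = (4 : ℝ) •
    ((1 + W.u m) * W.aa m g h * ((1 - W.u n) * W.aa n g h)) := by
  rcases eq_or_ne m n with rfl | hmn
  · rw [W.v_self, zero_mul]
    have e : Commute (W.aa m g h) (1 - W.u m) :=
      (Commute.one_right _).sub_right ((W.comm_uo m m g).mul_right (W.comm_uo m m h)).symm
    rw [mul_assoc (1 + W.u m), ← mul_assoc (W.aa m g h), e.eq, mul_assoc (1 - W.u m),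
      ← mul_assoc (1 + W.u m), W.add_mul_sub_u, zero_mul, smul_zero]
  have hp : ∀ k g', Commute (c.act g' (W.o k)) ((1 + W.u m) * (1 - W.u n)) := fun k g' =>
    ((Commute.one_right _).add_right (W.comm_uo m k g').symm).mul_right
      ((Commute.one_right _).sub_right (W.comm_uo n k g').symm)
  have hu : Commute (1 + W.u m) (1 - W.u n) :=
    (Commute.one_left _).add_left ((Commute.one_right _).sub_right (W.comm_uu m n))
  rw [v, v, ((hp m g).mul_left (hp n g)).mul_mul_mul_comm, (hu.symm).mul_mul_mul_comm,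
    (W.comm_oo n m hmn.symm g h).mul_mul_mul_comm, W.add_sq_u, W.sub_sq_u, smul_mul_assoc,
    mul_smul_comm, smul_smul, smul_mul_assoc]
  congr 1
  · norm_num
  have hc : Commute (W.aa m g h) (1 - W.u n) :=
    ((Commute.one_left _).sub_left ((W.comm_uo n m g).mul_right (W.comm_uo n m h))).symm
  exact Commute.mul_mul_mul_comm hc.symm _ _

/-! ### The signs -/

lemma comm_FF (m n : ℕ) : Commute (W.F m) (W.F n) := by
  have hu : ∀ a b, Commute (W.u a) ((1 + W.u b) * W.U b + (1 - W.u b)) := fun a b =>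
    (((Commute.one_right _).add_right (W.comm_uu a b)).mul_right (W.comm_uU a b)).add_right
      ((Commute.one_right _).sub_right (W.comm_uu a b))
  have hU : Commute (W.U m) ((1 + W.u n) * W.U n + (1 - W.u n)) :=
    (((Commute.one_right _).add_right (W.comm_uU n m).symm).mul_right (W.comm_UU m n)).add_right
      ((Commute.one_right _).sub_right (W.comm_uU n m).symm)
  exact (((((Commute.one_left _).add_left (hu m n)).mul_left hU).add_left
    ((Commute.one_left _).sub_left (hu m n))).smul_left _).smul_right _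

lemma F_sa (m : ℕ) : IsSelfAdjoint (W.F m) :=
  (IsSelfAdjoint.all _).smul (((IsSelfAdjoint.commute_iff ((IsSelfAdjoint.one A).add (W.sau m))
    (W.saU m)).1 ((Commute.one_left _).add_left (W.comm_uU m m))).add
      ((IsSelfAdjoint.one A).sub (W.sau m)))

lemma F_sq (m : ℕ) : W.F m * W.F m = 1 := by
  have h1 : Commute (W.U m) (1 + W.u m) := (Commute.one_right _).add_right (W.comm_uU m m).symm
  have h2 : Commute (W.U m) (1 - W.u m) := (Commute.one_right _).sub_right (W.comm_uU m m).symm
  have e1 : (1 + W.u m) * W.U m * ((1 + W.u m) * W.U m) = (2 : ℝ) • (1 + W.u m) := by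
    rw [h1.mul_mul_mul_comm, W.sqU, mul_one, W.add_sq_u]
  have e2 : (1 + W.u m) * W.U m * (1 - W.u m) = 0 := by
    rw [mul_assoc, h2.eq, ← mul_assoc, W.add_mul_sub_u, zero_mul]
  have e3 : (1 - W.u m) * ((1 + W.u m) * W.U m) = 0 := by
    rw [← mul_assoc, W.sub_mul_add_u, zero_mul]
  rw [F, smul_mul_assoc, mul_smul_comm, smul_smul, add_mul, mul_add, mul_add, e1, e2, e3,
    W.sub_sq_u]
  simp only [add_zero, zero_add, smul_add, smul_smul, smul_sub]
  module

lemma act_F (g : G) (m : ℕ) : c.act g (W.F m) = W.F m := by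
  rw [F, ← Complex.coe_smul, map_smul]
  simp [W.invu, W.invU]

lemma F_v_left {m n : ℕ} (h : m ≠ n) (g : G) : W.F m * W.v m n g = -(W.v m n g * W.F m) := by
  have hu : Commute (1 + W.u m) (W.v m n g) :=
    (Commute.one_left _).add_left (W.commute_u_v m m n g)
  have hu' : Commute (1 - W.u m) (W.v m n g) :=
    (Commute.one_left _).sub_left (W.commute_u_v m m n g)
  have e : (1 - W.u m) * W.v m n g = 0 := by
    simp only [v, ← mul_assoc, W.sub_mul_add_u, zero_mul]
  have e' : W.v m n g * (1 - W.u m) = 0 := by rw [← hu'.eq, e]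
  rw [F, smul_mul_assoc, mul_smul_comm, add_mul, mul_add, e, e', add_zero, add_zero, ← smul_neg,
    mul_assoc (1 + W.u m) (W.U m) (W.v m n g), W.U_v_left h g, mul_neg, ← mul_assoc, hu.eq,
    mul_assoc]

lemma F_v_right {m n : ℕ} (_h : m ≠ n) (g : G) : Commute (W.F n) (W.v m n g) := by
  have hu : Commute (1 + W.u n) (W.v m n g) :=
    (Commute.one_left _).add_left (W.commute_u_v n m n g)
  have hu' : Commute (1 - W.u n) (W.v m n g) :=
    (Commute.one_left _).sub_left (W.commute_u_v n m n g)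
  have e : (1 + W.u n) * W.v m n g = 0 := by
    have hc : Commute (1 + W.u n) (1 + W.u m) :=
      (Commute.one_left _).add_left ((Commute.one_right _).add_right (W.comm_uu n m))
    simp only [v, ← mul_assoc]
    rw [hc.eq, mul_assoc (1 + W.u m), W.add_mul_sub_u, mul_zero, zero_mul, zero_mul]
  have hU : Commute (W.U n) (1 + W.u n) := (Commute.one_right _).add_right (W.comm_uU n n).symm
  refine Commute.smul_left (Commute.add_left ?_ hu') _
  change (1 + W.u n) * W.U n * W.v m n g = W.v m n g * ((1 + W.u n) * W.U n)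
  rw [← mul_assoc (W.v m n g), ← hu.eq, e, zero_mul, ← hU.eq, mul_assoc, e, mul_zero]

lemma commute_F_v {k m n : ℕ} (hm : k ≠ m) (g : G) : Commute (W.F k) (W.v m n g) := by
  rcases eq_or_ne m n with rfl | hmn
  · rw [W.v_self]; exact Commute.zero_right _
  rcases eq_or_ne k n with rfl | hn
  · exact W.F_v_right hmn g
  · exact ((((Commute.one_left _).add_left (W.commute_u_v k m n g)).mul_left
      (W.commute_U_v hm hn g)).add_left
        ((Commute.one_left _).sub_left (W.commute_u_v k m n g))).smul_left _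

lemma commute_Q_of {x : A} : ∀ n, (∀ m < n, Commute (W.F m) x) → Commute (W.Q n) x
  | 0, _ => Commute.one_left x
  | n + 1, h => (commute_Q_of n fun m hm => h m (hm.trans n.lt_succ_self)).mul_left
      (h n n.lt_succ_self)

lemma comm_QF (n m : ℕ) : Commute (W.Q n) (W.F m) := W.commute_Q_of n fun k _ => W.comm_FF k m

lemma comm_QQ (n m : ℕ) : Commute (W.Q n) (W.Q m) :=
  W.commute_Q_of n fun k _ => (W.comm_QF m k).symm

lemma Q_sa : ∀ n, IsSelfAdjoint (W.Q n)
  | 0 => IsSelfAdjoint.one A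
  | n + 1 => (IsSelfAdjoint.commute_iff (Q_sa n) (W.F_sa n)).1 (W.comm_QF n n)

lemma Q_sq : ∀ n, W.Q n * W.Q n = 1
  | 0 => one_mul 1
  | n + 1 => by
    rw [Q, (W.comm_QF n n).symm.mul_mul_mul_comm, Q_sq n, W.F_sq, one_mul]

lemma act_Q (g : G) : ∀ n, c.act g (W.Q n) = W.Q n
  | 0 => map_one (c.act g)
  | n + 1 => by rw [Q, map_mul, act_Q g n, W.act_F]

lemma commute_Q_v {k m : ℕ} (hk : k ≤ m) (n : ℕ) (g : G) : Commute (W.Q k) (W.v m n g) :=
  W.commute_Q_of k fun _ hj => W.commute_F_v (Nat.ne_of_lt (hj.trans_le hk)) g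

lemma Q_v_anti : ∀ {k m : ℕ}, m < k → ∀ (n : ℕ) (g : G),
    W.Q k * W.v m n g = -(W.v m n g * W.Q k)
  | 0, _, h, _, _ => absurd h (Nat.not_lt_zero _)
  | k + 1, m, h, n, g => by
    rcases eq_or_ne m n with rfl | hmn
    · simp [W.v_self]
    rcases (Nat.lt_succ_iff.1 h).eq_or_lt with rfl | hlt
    · rw [Q, mul_assoc, W.F_v_left hmn, mul_neg, ← mul_assoc, (W.commute_Q_v le_rfl n g).eq,
        mul_assoc]
    · rw [Q, mul_assoc, (W.commute_F_v (Nat.ne_of_gt hlt) g).eq, ← mul_assoc,
        Q_v_anti hlt n g, neg_mul, mul_assoc]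

/-- The signs commute with the products of two summands of one pair. -/
lemma commute_Q_vv (k m n : ℕ) (g h : G) : Commute (W.Q k) (W.v m n g * W.v m n h) := by
  rcases le_or_gt k m with hk | hk
  · exact (W.commute_Q_v hk n g).mul_right (W.commute_Q_v hk n h)
  · exact commute_of_anti (W.Q_v_anti hk n g) (W.Q_v_anti hk n h)

lemma commute_S_v {s : A} (hs : s ∈ S) (m n : ℕ) (g : G) : Commute s (W.v m n g) :=
  W.commute_v (W.comm_S s hs m).2.1 (W.comm_S s hs n).2.1 ((W.comm_S s hs m).2.2 g)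
    ((W.comm_S s hs n).2.2 g)

lemma commute_S_Q {s : A} (hs : s ∈ S) (k : ℕ) : Commute s (W.Q k) := by
  refine (W.commute_Q_of k fun m _ => ?_).symm
  obtain ⟨hU, hu, -⟩ := W.comm_S s hs m
  exact ((((Commute.one_left _).add_left hu.symm).mul_left hU.symm).add_left
    ((Commute.one_left _).sub_left hu.symm)).smul_left _

end Units

end Vale.Agent.P095.Stage2
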