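import Mathlib
import Vale.Agent.P095.Stage2.Block

/-!
Stage 2: the covariance of the blocks and the signed sums over all blocks.
-/

noncomputable section

open Filter Topology Finset
open scoped CStarAlgebra

namespace Vale.Agent.P095.Stage2

universe u v

variable {G : Type v} [Group G] {A : Type u} [CStarAlgebra A] {c : Cfg G A} {S : Set A}

/-- The index of unit k of block r. -/
def idx (N r k : ℕ) : ℕ := r * N + k

lemma idx_lt {N r s : ℕ} (h : r < s) (k : Fin N) : idx N r k < s * N := by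
  have h1 : (r + 1) * N ≤ s * N := Nat.mul_le_mul_right N h
  have h2 := k.2
  rw [idx]; rw [add_mul, one_mul] at h1; omega

lemma le_idx {N r s : ℕ} (h : s ≤ r) (k : Fin N) : s * N ≤ idx N r k :=
  (Nat.mul_le_mul_right N h).trans (Nat.le_add_right _ _)

lemma idx_ne {N r s : ℕ} (h : r ≠ s) (k l : Fin N) : idx N r k ≠ idx N s l := by
  rcases lt_or_gt_of_ne h with h | h
  · exact Nat.ne_of_lt ((idx_lt h k).trans_le (le_idx le_rfl l))
  · exact Nat.ne_of_gt ((idx_lt h l).trans_le (le_idx le_rfl k))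

lemma idx_ne' {N r : ℕ} {k l : Fin N} (h : k ≠ l) : idx N r k ≠ idx N r l := fun e =>
  h (Fin.ext (Nat.add_left_cancel e))

namespace Units

variable (W : Units c S)

/-- A summand of block r. -/
def bv (N r : ℕ) (p : Fin N × Fin N) (g : G) : A := W.v (idx N r p.1) (idx N r p.2) g

/-- The normalised sum over one block. -/
def q (N r : ℕ) (g : G) : A := (N : ℝ)⁻¹ • ∑ p : Fin N × Fin N, W.bv N r p g

/-- The covariance of one block. -/
def Kr (N r : ℕ) (g h : G) : A :=
  (Fintype.card (Fin N × Fin N) : ℝ)⁻¹ • ∑ p : Fin N × Fin N, W.bv N r p g * W.bv N r p h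

/-- The averaged covariance. -/
def Kbar (N R : ℕ) (g h : G) : A :=
  (Fintype.card (Fin R) : ℝ)⁻¹ • ∑ r : Fin R, W.Kr N r g h

/-- The signed sum over all blocks. -/
def Sg (N R : ℕ) (g : G) : A := (Real.sqrt R)⁻¹ • ∑ r : Fin R, W.Q (r * N) * W.q N r g

/-- The mean of the products of translates. -/
def am (N r : ℕ) (g h : G) : A :=
  (Fintype.card (Fin N) : ℝ)⁻¹ • ∑ k : Fin N, W.aa (idx N r k) g h

/-- The same mean, signed by the fair symmetries. -/
def dm (N r : ℕ) (g h : G) : A :=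
  (Fintype.card (Fin N) : ℝ)⁻¹ • ∑ k : Fin N, W.u (idx N r k) * W.aa (idx N r k) g h

variable {N R : ℕ}

lemma bv_sa (r : ℕ) (p : Fin N × Fin N) (g : G) : IsSelfAdjoint (W.bv N r p g) := W.v_sa _ _ _

lemma q_sa (r : ℕ) (g : G) : IsSelfAdjoint (W.q N r g) :=
  (IsSelfAdjoint.all _).smul (isSelfAdjoint_sum _ fun p _ => W.bv_sa r p g)

lemma norm_q (r : ℕ) (g : G) : ‖W.q N r g‖ ≤ 16 * N := by
  rw [q, norm_smul, Real.norm_eq_abs, abs_of_nonneg (by positivity)]
  rcases Nat.eq_zero_or_pos N with h | h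
  · subst h; simp
  · rw [inv_mul_le_iff₀ (by exact_mod_cast h)]
    refine (norm_sum_le _ _).trans ((sum_le_sum fun p _ => W.norm_v _ _ _).trans (le_of_eq ?_))
    simp; ring

lemma norm_Kr (r : ℕ) (g h : G) : ‖W.Kr N r g h‖ ≤ 256 :=
  norm_mean_le (by norm_num) fun _ =>
    (norm_mul_le' (W.norm_v _ _ _) (W.norm_v _ _ _)).trans (by norm_num)

lemma norm_Kbar (g h : G) : ‖W.Kbar N R g h‖ ≤ 256 :=
  norm_mean_le (by norm_num) fun _ => W.norm_Kr _ g h

lemma star_Kr (r : ℕ) (g h : G) : star (W.Kr N r g h) = W.Kr N r h g := by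
  simp [Kr, star_sum, (W.bv_sa r _ _).star_eq]

lemma star_Kbar (g h : G) : star (W.Kbar N R g h) = W.Kbar N R h g := by
  simp [Kbar, star_sum, W.star_Kr]

lemma act_Kr (x : G) (r : ℕ) (g h : G) : c.act x (W.Kr N r g h) = W.Kr N r (x * g) (x * h) := by
  simp [Kr, bv, ← Complex.coe_smul, map_sum, W.act_v]

lemma act_Kbar (x : G) (g h : G) : c.act x (W.Kbar N R g h) = W.Kbar N R (x * g) (x * h) := by
  simp [Kbar, ← Complex.coe_smul, map_sum, W.act_Kr]

lemma act_Sg (x : G) (g : G) : c.act x (W.Sg N R g) = W.Sg N R (x * g) := by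
  simp [Sg, q, bv, ← Complex.coe_smul, map_sum, W.act_v, W.act_Q]

lemma commute_bv {r s : ℕ} (h : r ≠ s) (p p' : Fin N × Fin N) (g g' : G) :
    Commute (W.bv N r p g) (W.bv N s p' g') :=
  W.commute_v_v (idx_ne h _ _) (idx_ne h _ _) (idx_ne h _ _) (idx_ne h _ _) g g'

lemma commute_q {r s : ℕ} (h : r ≠ s) (g g' : G) : Commute (W.q N r g) (W.q N s g') :=
  ((Commute.sum_left _ _ _ fun p _ => Commute.sum_right _ _ _ fun p' _ =>
    W.commute_bv h p p' g g').smul_left _).smul_right _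

lemma commute_Kr_q {r s : ℕ} (h : r ≠ s) (g g' g'' : G) :
    Commute (W.Kr N r g g') (W.q N s g'') :=
  ((Commute.sum_left _ _ _ fun p _ => Commute.sum_right _ _ _ fun p' _ =>
    (W.commute_bv h p p' g g'').mul_left (W.commute_bv h p p' g' g'')).smul_left _).smul_right _

lemma commute_Kr_Kr {r s : ℕ} (h : r ≠ s) (g g' g₁ g₂ : G) :
    Commute (W.Kr N r g g') (W.Kr N s g₁ g₂) :=
  ((Commute.sum_left _ _ _ fun p _ => Commute.sum_right _ _ _ fun p' _ =>
    ((W.commute_bv h p p' g g₁).mul_left (W.commute_bv h p p' g' g₁)).mul_right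
      ((W.commute_bv h p p' g g₂).mul_left (W.commute_bv h p p' g' g₂))).smul_left _).smul_right _

lemma commute_Q_Kbar (k : ℕ) (g h : G) : Commute (W.Q k) (W.Kbar N R g h) :=
  (Commute.sum_right _ _ _ fun _ _ =>
    (Commute.sum_right _ _ _ fun _ _ => W.commute_Q_vv k _ _ g h).smul_right _).smul_right _

lemma commute_Q_q {r s : ℕ} (h : r ≤ s) (g : G) : Commute (W.Q (r * N)) (W.q N s g) :=
  (Commute.sum_right _ _ _ fun p _ => W.commute_Q_v (le_idx h p.1) _ g).smul_right _

lemma Q_q_anti {r s : ℕ} (h : s < r) (g : G) :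
    W.Q (r * N) * W.q N s g = -(W.q N s g * W.Q (r * N)) := by
  rw [q, mul_smul_comm, smul_mul_assoc, ← smul_neg, mul_sum, sum_mul, ← sum_neg_distrib]
  exact congrArg _ (sum_congr rfl fun p _ => W.Q_v_anti (idx_lt h p.1) _ g)

lemma Q_top_Sg (g : G) : W.Q (R * N) * W.Sg N R g = -(W.Sg N R g * W.Q (R * N)) := by
  rw [Sg, mul_smul_comm, smul_mul_assoc, ← smul_neg, mul_sum, sum_mul, ← sum_neg_distrib]
  exact congrArg _ (sum_congr rfl fun r _ => anti_mul_right (W.comm_QQ _ _) (W.Q_q_anti r.2 g))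

lemma Sg_sa (g : G) : IsSelfAdjoint (W.Sg N R g) :=
  (IsSelfAdjoint.all _).smul (isSelfAdjoint_sum _ fun _ _ =>
    (IsSelfAdjoint.commute_iff (W.Q_sa _) (W.q_sa _ g)).1 (W.commute_Q_q le_rfl g))

lemma commute_S_Kbar {s : A} (hs : s ∈ S) (g h : G) : Commute s (W.Kbar N R g h) :=
  (Commute.sum_right _ _ _ fun _ _ => (Commute.sum_right _ _ _ fun _ _ =>
    (W.commute_S_v hs _ _ g).mul_right (W.commute_S_v hs _ _ h)).smul_right _).smul_right _

lemma commute_S_Sg {s : A} (hs : s ∈ S) (g : G) : Commute s (W.Sg N R g) :=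
  (Commute.sum_right _ _ _ fun _ _ => (W.commute_S_Q hs _).mul_right
    ((Commute.sum_right _ _ _ fun _ _ => W.commute_S_v hs _ _ g).smul_right _)).smul_right _

/-- Signed terms of different blocks anticommute. -/
lemma signed_anti {r s : ℕ} (h : r ≠ s) (g g' : G) :
    W.Q (r * N) * W.q N r g * (W.Q (s * N) * W.q N s g')
      + W.Q (s * N) * W.q N s g' * (W.Q (r * N) * W.q N r g) = 0 := by
  have key : ∀ {r s : ℕ}, r < s → ∀ g g',
      W.Q (r * N) * W.q N r g * (W.Q (s * N) * W.q N s g')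
        + W.Q (s * N) * W.q N s g' * (W.Q (r * N) * W.q N r g) = 0 := by
    intro r s h g g'
    have h1 : W.q N r g * W.Q (s * N) = -(W.Q (s * N) * W.q N r g) := by
      rw [W.Q_q_anti h g, neg_neg]
    have h2 : W.q N s g' * W.Q (r * N) = W.Q (r * N) * W.q N s g' :=
      (W.commute_Q_q h.le g').eq.symm
    rw [show W.Q (r * N) * W.q N r g * (W.Q (s * N) * W.q N s g')
        = W.Q (r * N) * (W.q N r g * W.Q (s * N)) * W.q N s g' by simp only [mul_assoc],
      show W.Q (s * N) * W.q N s g' * (W.Q (r * N) * W.q N r g)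
        = W.Q (s * N) * (W.q N s g' * W.Q (r * N)) * W.q N r g by simp only [mul_assoc], h1, h2,
      ← mul_assoc (W.Q (s * N)), (W.comm_QQ (s * N) (r * N)).eq, mul_assoc _ (W.q N s g'),
      (W.commute_q h.ne' g' g).eq]
    simp only [mul_neg, neg_mul, mul_assoc]
    exact neg_add_cancel _
  rcases lt_or_gt_of_ne h with h | h
  · exact key h g g'
  · rw [add_comm]; exact key h g' g

lemma Sg_anticomm (g h : G) : W.Sg N R g * W.Sg N R h + W.Sg N R h * W.Sg N R g =
    (Fintype.card (Fin R) : ℝ)⁻¹ • ∑ r : Fin R, (W.q N r g * W.q N r h + W.q N r h * W.q N r g) := by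
  rw [Sg, Sg, smul_mul_assoc, mul_smul_comm, smul_smul, smul_mul_assoc, mul_smul_comm, smul_smul,
    ← smul_add, ← mul_inv, Real.mul_self_sqrt (Nat.cast_nonneg R), Fintype.card_fin]
  congr 1
  rw [sum_mul_sum, sum_mul_sum]
  conv_lhs => arg 2; rw [sum_comm]
  simp only [← sum_add_distrib]
  refine sum_congr rfl fun r _ => ?_
  rw [sum_eq_single r (fun s _ hs => W.signed_anti (fun e => hs (Fin.ext e.symm)) g h) (by simp)]
  have hc : ∀ a, Commute (W.Q ((r : ℕ) * N)) (W.q N r a) := fun a => W.commute_Q_q le_rfl a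
  rw [(hc g).symm.mul_mul_mul_comm, (hc h).symm.mul_mul_mul_comm, W.Q_sq, one_mul, one_mul]

lemma norm_Sg (g : G) : ‖W.Sg N R g‖ ≤ 16 * N := by
  have h0 : (0 : ℝ) ≤ 16 * N := by positivity
  refine (pow_le_pow_iff_left₀ (norm_nonneg _) h0 two_ne_zero).1 ?_
  rw [sq, ← CStarRing.norm_star_mul_self, (W.Sg_sa g).star_eq]
  have h := congrArg (fun x => ‖x‖) (W.Sg_anticomm g g (N := N) (R := R))
  rw [← two_smul ℝ (W.Sg N R g * W.Sg N R g), norm_smul, Real.norm_eq_abs, abs_two] at h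
  have h' : ‖(Fintype.card (Fin R) : ℝ)⁻¹ • ∑ r : Fin R,
      (W.q N r g * W.q N r g + W.q N r g * W.q N r g)‖ ≤ 2 * (16 * N) ^ 2 :=
    norm_mean_le (by positivity) fun r => by
      refine (norm_add_le _ _).trans ?_
      linarith [norm_mul_le' (W.norm_q (N := N) r g) (W.norm_q (N := N) r g),
        sq (16 * (N : ℝ))]
  linarith

lemma norm_br_Sg_Kbar (g a b : G) :
    ‖br (W.Sg N R g) (W.Kbar N R a b)‖ ≤ 8192 * N / Real.sqrt R := by
  have h1 : ∀ s : Fin R, ‖br (W.Q (s * N) * W.q N s g) (W.Kbar N R a b)‖ ≤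
      (R : ℝ)⁻¹ * (2 * (16 * N) * 256) := by
    intro s
    have e : br (W.Q (s * N) * W.q N s g) (W.Kbar N R a b)
        = W.Q (s * N) * ((R : ℝ)⁻¹ • br (W.q N s g) (W.Kr N s a b)) := by
      have e1 : br (W.Q (s * N) * W.q N s g) (W.Kbar N R a b)
          = W.Q (s * N) * br (W.q N s g) (W.Kbar N R a b) := by
        rw [br, br, mul_sub, ← mul_assoc (W.Kbar N R a b), ← (W.commute_Q_Kbar _ a b).eq]
        simp only [mul_assoc]
      have e2 : br (W.q N s g) (W.Kbar N R a b)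
          = (R : ℝ)⁻¹ • br (W.q N s g) (W.Kr N s a b) := by
        simp only [br, Kbar, mul_smul_comm, smul_mul_assoc, ← smul_sub, mul_sum, sum_mul,
          ← sum_sub_distrib, Fintype.card_fin]
        congr 1
        exact sum_eq_single s
          (fun r _ hr => sub_eq_zero.2 (W.commute_Kr_q (fun e => hr (Fin.ext e)) a b g).eq.symm)
          (by simp)
      rw [e1, e2]
    rw [e]
    refine (norm_mul_le' (norm_symm_le (W.Q_sa _) (W.Q_sq _)) le_rfl).trans ?_
    rw [one_mul, norm_smul, Real.norm_eq_abs, abs_of_nonneg (by positivity)]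
    exact mul_le_mul_of_nonneg_left (norm_br_le (W.norm_q _ _) (W.norm_Kr _ _ _)) (by positivity)
  rcases Nat.eq_zero_or_pos R with hR | hR
  · subst hR; simp [Sg, br]
  have hR' : (0 : ℝ) < R := by exact_mod_cast hR
  rw [show br (W.Sg N R g) (W.Kbar N R a b) = (Real.sqrt R)⁻¹ •
      ∑ s : Fin R, br (W.Q (s * N) * W.q N s g) (W.Kbar N R a b) by
    simp [Sg, br, sum_mul, mul_sum, smul_sub, sum_sub_distrib], norm_smul, Real.norm_eq_abs,
    abs_of_nonneg (by positivity)]
  refine (mul_le_mul_of_nonneg_left ((norm_sum_le _ _).trans (sum_le_sum fun s _ => h1 s))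
    (by positivity)).trans (le_of_eq ?_)
  simp
  field_simp
  ring

lemma norm_br_Kbar (g h a b : G) :
    ‖br (W.Kbar N R g h) (W.Kbar N R a b)‖ ≤ 131072 / R := by
  rcases Nat.eq_zero_or_pos R with hR | hR
  · subst hR; simp [Kbar, br]
  have hR' : (0 : ℝ) < R := by exact_mod_cast hR
  have e : br (W.Kbar N R g h) (W.Kbar N R a b)
      = ((R : ℝ)⁻¹ * (R : ℝ)⁻¹) • ∑ r : Fin R, br (W.Kr N r g h) (W.Kr N r a b) := by
    simp only [br, Kbar, mul_smul_comm, smul_mul_assoc, smul_smul, ← smul_sub, Fintype.card_fin,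
      sum_mul_sum]
    congr 1
    conv_lhs => arg 2; rw [sum_comm]
    rw [← sum_sub_distrib]
    refine sum_congr rfl fun r _ => ?_
    rw [← sum_sub_distrib]
    exact sum_eq_single r
      (fun s _ hs => sub_eq_zero.2 (W.commute_Kr_Kr (fun e => hs (Fin.ext e.symm)) g h a b).eq)
      (by simp)
  rw [e, norm_smul, Real.norm_eq_abs, abs_of_nonneg (by positivity)]
  refine (mul_le_mul_of_nonneg_left ((norm_sum_le _ _).trans (sum_le_sum fun r _ =>
    norm_br_le (W.norm_Kr _ g h) (W.norm_Kr _ a b))) (by positivity)).trans (le_of_eq ?_)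
  simp
  field_simp
  ring

/-- The covariance of a block factorises. -/
lemma Kr_eq (r : ℕ) (g h : G) : W.Kr N r g h =
    (4 : ℝ) • ((W.am N r g h + W.dm N r g h) * (W.am N r g h - W.dm N r g h)) := by
  simp only [Kr, bv, W.v_mul_v, am, dm, ← smul_add, ← smul_sub, ← sum_add_distrib,
    ← sum_sub_distrib, smul_mul_assoc, mul_smul_comm, smul_smul, ← smul_sum,
    Fintype.sum_prod_type, sum_mul_sum, add_mul, sub_mul, one_mul, Fintype.card_prod]
  congr 1
  push_cast
  rw [mul_inv]; ring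

lemma exists_psd {ι : Type*} [Fintype ι] (j : ι → G) (t : ι → ℝ) :
    ∃ B, star B * B = ∑ a, ∑ b, (t a * t b) • W.Kbar N R (j a) (j b) := by
  let := CStarAlgebra.spectralOrder A
  have := CStarAlgebra.spectralOrderedRing A
  set cc : ℝ := (Fintype.card (Fin R) : ℝ)⁻¹ * (Fintype.card (Fin N × Fin N) : ℝ)⁻¹ with hcc
  have hcc0 : 0 ≤ cc := by positivity
  set y : Fin R → Fin N × Fin N → A := fun r p =>
    Real.sqrt cc • ∑ a, t a • W.bv N r p (j a) with hy
  have e : ∑ r, ∑ p, star (y r p) * y r p = ∑ a, ∑ b, (t a * t b) • W.Kbar N R (j a) (j b) := by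
    simp only [hy, Kbar, Kr, star_smul, star_sum, star_trivial, (W.bv_sa _ _ _).star_eq,
      smul_mul_assoc, mul_smul_comm, sum_mul, mul_sum, smul_sum, smul_smul,
      ← mul_assoc]
    refine ((sum_congr rfl fun r _ => sum_comm).trans sum_comm).trans
      (Eq.trans (sum_congr rfl fun a _ => ?_) sum_comm)
    refine ((sum_congr rfl fun r _ => sum_comm).trans sum_comm).trans
      (sum_congr rfl fun b _ => sum_congr rfl fun r _ => sum_congr rfl fun p _ => ?_)
    congr 1
    linear_combination (t a * t b) * Real.mul_self_sqrt hcc0 + (t a * t b) * hcc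
  obtain ⟨B, hB⟩ := CStarAlgebra.nonneg_iff_eq_star_mul_self.1
    (sum_nonneg fun r (_ : r ∈ univ) => sum_nonneg fun p (_ : p ∈ univ) =>
      star_mul_self_nonneg (y r p))
  exact ⟨B, hB.symm.trans e⟩

end Units

end Vale.Agent.P095.Stage2
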