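import Mathlib
import Vale.Agent.P095.Stage2.Cov

/-!
Stage 2: two-norm estimates of the covariance and of the squares of the signed sums.
-/

noncomputable section

open Filter Topology Finset
open scoped CStarAlgebra

namespace Vale.Agent.P095.Stage2.Units

universe u v

variable {G : Type v} [Group G] {A : Type u} [CStarAlgebra A] {c : Cfg G A} {S : Set A}
  (W : Units c S) {N R : ℕ} {τ : A →ₗ[ℂ] ℂ}

lemma aa_self (m : ℕ) (g : G) : W.aa m g g = c.act g (W.o m * W.o m) := (map_mul (c.act g) _ _).symm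

lemma commute_aa {m n : ℕ} (h : m ≠ n) (g₁ g₂ g₃ g₄ : G) :
    Commute (W.aa m g₁ g₂) (W.aa n g₃ g₄) :=
  ((W.comm_oo m n h g₁ g₃).mul_right (W.comm_oo m n h g₁ g₄)).mul_left
    ((W.comm_oo m n h g₂ g₃).mul_right (W.comm_oo m n h g₂ g₄))

lemma commute_u_aa (m n : ℕ) (g h : G) : Commute (W.u m) (W.aa n g h) :=
  (W.comm_uo m n g).mul_right (W.comm_uo m n h)

lemma norm_u_aa (m : ℕ) (g h : G) : ‖W.u m * W.aa m g h‖ ≤ 4 :=
  (norm_mul_le' (norm_symm_le (W.sau m) (W.squ m)) (W.norm_aa m g h)).trans (by norm_num)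

lemma norm_am (r : ℕ) (g h : G) : ‖W.am N r g h‖ ≤ 4 :=
  norm_mean_le (by norm_num) fun _ => W.norm_aa _ g h

lemma norm_dm (r : ℕ) (g h : G) : ‖W.dm N r g h‖ ≤ 4 :=
  norm_mean_le (by norm_num) fun _ => W.norm_u_aa _ g h

lemma star_am (r : ℕ) (g h : G) : star (W.am N r g h) = W.am N r h g := by
  simp [am, star_sum, W.star_aa]

variable (hT : τ ∈ c.T)

include hT

lemma sn_am_sub (r : ℕ) (g h : G) :
    sn τ (W.am N r g h - W.am N r h g) ≤ 8 / Real.sqrt N := by
  have ht := c.tr τ hT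
  have e : W.am N r g h - W.am N r h g = (Fintype.card (Fin N) : ℝ)⁻¹ •
      ∑ k : Fin N, (W.aa (idx N r k) g h - W.aa (idx N r k) h g) := by
    rw [am, am, ← smul_sub, ← sum_sub_distrib]
  rw [e]
  refine (sn_mean_ortho ht (M := 8) (by norm_num) (fun k => (norm_sub_le _ _).trans (by
    linarith [W.norm_aa (idx N r k) g h, W.norm_aa (idx N r k) h g])) fun k l hkl => ?_).trans
      (by rw [Fintype.card_fin])
  have hne := idx_ne' (r := r) hkl
  rw [star_sub, W.star_aa, W.star_aa]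
  generalize idx N r k = m at hne
  generalize idx N r l = n at hne
  set y := W.aa m h g - W.aa m g h with hy
  have hp : ∀ a, Commute (c.act a (W.o n)) y := fun a =>
    (((W.comm_oo n m hne.symm a h).mul_right (W.comm_oo n m hne.symm a g))).sub_right
      ((W.comm_oo n m hne.symm a g).mul_right (W.comm_oo n m hne.symm a h))
  rw [aa, aa, mul_sub, map_sub, sub_eq_zero, ← mul_assoc, ht.comm, ← mul_assoc, (hp h).eq,
    mul_assoc]

lemma sn_dm (r : ℕ) (g h : G) : sn τ (W.dm N r g h) ≤ 4 / Real.sqrt N := by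
  have ht := c.tr τ hT
  refine (sn_mean_ortho ht (M := 4) (by norm_num) (fun k => W.norm_u_aa _ g h)
    fun k l hkl => ?_).trans (by rw [Fintype.card_fin])
  have hne := idx_ne' (r := r) hkl
  generalize idx N r k = m at hne
  generalize idx N r l = n at hne
  rw [star_mul, (W.sau m).star_eq, W.star_aa, mul_assoc, ← mul_assoc (W.u m), ← mul_assoc,
    ((W.commute_u_aa m m h g).mul_left (W.commute_u_aa n m h g)).eq.symm, mul_assoc]
  exact W.fairu τ hT m n hne h g g h

lemma sn_am_diag (hN : 0 < N) (r : ℕ) (g : G) :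
    sn τ (W.am N r g g - (2 : ℝ)⁻¹ • (1 : A)) ≤ 5 / Real.sqrt N := by
  have ht := c.tr τ hT
  have hN' : (N : ℝ) ≠ 0 := by positivity
  have e : W.am N r g g - (2 : ℝ)⁻¹ • (1 : A) = (Fintype.card (Fin N) : ℝ)⁻¹ •
      ∑ k : Fin N, (W.aa (idx N r k) g g - (2 : ℝ)⁻¹ • (1 : A)) := by
    rw [sum_sub_distrib, smul_sub, sum_const, card_univ, Fintype.card_fin, ← Nat.cast_smul_eq_nsmul ℝ,
      smul_smul, smul_smul, inv_mul_cancel₀ hN', one_mul]
    rw [am, Fintype.card_fin]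
  rw [e]
  refine (sn_mean_ortho ht (M := 5) (by norm_num) (fun k => (norm_sub_le _ _).trans ?_)
    fun k l hkl => ?_).trans (by rw [Fintype.card_fin])
  · rw [norm_smul, norm_inv, Real.norm_eq_abs, abs_two]
    linarith [W.norm_aa (idx N r k) g g, norm_one_le (A := A)]
  have hne := idx_ne' (r := r) hkl
  generalize idx N r k = m at hne
  generalize idx N r l = n at hne
  rw [star_sub, W.star_aa, star_smul, star_one, star_trivial, sub_mul, mul_sub, mul_sub]
  simp only [smul_mul_assoc, mul_smul_comm, one_mul, mul_one, smul_smul, ← Complex.coe_smul,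
    map_sub, map_smul, smul_eq_mul, ht.map_one, W.aa_self, W.fairo τ hT, W.fairo₂ τ hT m n hne]
  norm_num

lemma sn_Kr_gram (r : ℕ) (g h : G) :
    sn τ (W.Kr N r g h - (4 : ℝ) • (star (W.am N r g h) * W.am N r g h)) ≤
      320 / Real.sqrt N := by
  have ht := c.tr τ hT
  set a := W.am N r g h with ha
  set d := W.dm N r g h with hd
  have e : (a + d) * (a - d) - star a * a = (a - star a) * a + (d * a - a * d - d * d) := by
    noncomm_ring
  have hna := W.norm_am (N := N) r g h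
  have hnd := W.norm_dm (N := N) r g h
  have hsd : sn τ d ≤ 4 / Real.sqrt N := W.sn_dm hT r g h
  have hsa : sn τ (a - star a) ≤ 8 / Real.sqrt N := by
    rw [ha, W.star_am]; exact W.sn_am_sub hT r g h
  have h1 : sn τ ((a - star a) * a) ≤ 8 / Real.sqrt N * 4 :=
    (ht.sn_mul_le_right _ _).trans (mul_le_mul hsa hna (norm_nonneg _) (by positivity))
  have h2 : sn τ (d * a) ≤ 4 / Real.sqrt N * 4 :=
    (ht.sn_mul_le_right _ _).trans (mul_le_mul hsd hna (norm_nonneg _) (by positivity))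
  have h3 : sn τ (a * d) ≤ 4 * (4 / Real.sqrt N) :=
    (ht.sn_mul_le_left _ _).trans (mul_le_mul hna hsd (sn_nonneg _) (by norm_num))
  have h4 : sn τ (d * d) ≤ 4 * (4 / Real.sqrt N) :=
    (ht.sn_mul_le_left _ _).trans (mul_le_mul hnd hsd (sn_nonneg _) (by norm_num))
  rw [W.Kr_eq, ← smul_sub, ht.sn_smul_real, e, show |(4 : ℝ)| = 4 by norm_num]
  have := ht.sn_add_le ((a - star a) * a) (d * a - a * d - d * d)
  have := ht.sn_sub_le (d * a - a * d) (d * d)
  have := ht.sn_sub_le (d * a) (a * d)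
  calc 4 * sn τ ((a - star a) * a + (d * a - a * d - d * d))
      ≤ 4 * (8 / Real.sqrt N * 4 + 4 / Real.sqrt N * 4 + 4 * (4 / Real.sqrt N)
        + 4 * (4 / Real.sqrt N)) := by linarith
    _ = 320 / Real.sqrt N := by ring

lemma sn_Kr_symm (r : ℕ) (g h : G) :
    sn τ (W.Kr N r g h - W.Kr N r h g) ≤ 1000 / Real.sqrt N := by
  have ht := c.tr τ hT
  have h1 := W.sn_Kr_gram (N := N) hT r g h
  have h2 := W.sn_Kr_gram (N := N) hT r h g
  rw [W.star_am] at h1 h2
  set a := W.am N r g h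
  set b := W.am N r h g
  have hab : sn τ (a - b) ≤ 8 / Real.sqrt N := W.sn_am_sub hT r g h
  have h3 : sn τ ((4 : ℝ) • (b * a) - (4 : ℝ) • (a * b)) ≤ 4 * (8 / Real.sqrt N * 4 + 4 * (8 / Real.sqrt N)) := by
    rw [← smul_sub, ht.sn_smul_real, show |(4 : ℝ)| = 4 by norm_num,
      show b * a - a * b = a * (a - b) - (a - b) * a by noncomm_ring]
    refine mul_le_mul_of_nonneg_left ((ht.sn_sub_le _ _).trans ?_) (by norm_num)
    rw [add_comm]
    exact add_le_add ((ht.sn_mul_le_right _ _).trans (mul_le_mul hab (W.norm_am r g h)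
      (norm_nonneg _) (by positivity))) ((ht.sn_mul_le_left _ _).trans
        (mul_le_mul (W.norm_am r g h) hab (sn_nonneg _) (by norm_num)))
  have e : W.Kr N r g h - W.Kr N r h g = (W.Kr N r g h - (4 : ℝ) • (b * a))
      + ((4 : ℝ) • (b * a) - (4 : ℝ) • (a * b)) - (W.Kr N r h g - (4 : ℝ) • (a * b)) := by abel
  rw [e]
  have := ht.sn_sub_le ((W.Kr N r g h - (4 : ℝ) • (b * a))
      + ((4 : ℝ) • (b * a) - (4 : ℝ) • (a * b))) (W.Kr N r h g - (4 : ℝ) • (a * b))
  have := ht.sn_add_le (W.Kr N r g h - (4 : ℝ) • (b * a))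
    ((4 : ℝ) • (b * a) - (4 : ℝ) • (a * b))
  have e' : 1000 / Real.sqrt N = 1000 * (1 / Real.sqrt N) := by ring
  have : 0 ≤ 1 / Real.sqrt (N : ℝ) := by positivity
  ring_nf at *
  linarith

lemma sn_Kr_diag (hN : 0 < N) (r : ℕ) (g : G) : sn τ (W.Kr N r g g - 1) ≤ 1000 / Real.sqrt N := by
  have ht := c.tr τ hT
  have h1 := W.sn_Kr_gram (N := N) hT r g g
  rw [W.star_am] at h1
  set a := W.am N r g g
  have h2 := W.sn_am_diag hT hN r g
  have hp : ‖a + (2 : ℝ)⁻¹ • (1 : A)‖ ≤ 5 := by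
    refine (norm_add_le _ _).trans ?_
    rw [norm_smul, norm_inv, Real.norm_eq_abs, abs_two]
    linarith [W.norm_am (N := N) r g g, norm_one_le (A := A)]
  have e : W.Kr N r g g - 1 = (W.Kr N r g g - (4 : ℝ) • (a * a))
      + (4 : ℝ) • ((a - (2 : ℝ)⁻¹ • (1 : A)) * (a + (2 : ℝ)⁻¹ • (1 : A))) := by
    simp only [sub_mul, mul_add, smul_mul_assoc, mul_smul_comm, one_mul, mul_one, smul_add,
      smul_sub, smul_smul]
    module
  rw [e]
  refine (ht.sn_add_le _ _).trans ?_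
  rw [ht.sn_smul_real, show |(4 : ℝ)| = 4 by norm_num]
  have h3 := (ht.sn_mul_le_right (a - (2 : ℝ)⁻¹ • (1 : A)) (a + (2 : ℝ)⁻¹ • (1 : A))).trans
    (mul_le_mul h2 hp (norm_nonneg _) (by positivity))
  calc _ ≤ 320 / Real.sqrt N + 4 * (5 / Real.sqrt N * 5) := by linarith
    _ ≤ _ := by
      rw [show 320 / Real.sqrt N + 4 * (5 / Real.sqrt N * 5) = 420 / Real.sqrt N by ring]
      exact div_le_div_of_nonneg_right (by norm_num) (Real.sqrt_nonneg _)

lemma cross_zero (r : ℕ) {e f : Fin N × Fin N} (hef : e ≠ f) (g h : G) {Y : A}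
    (hY : ∀ k : Fin N, Commute (W.U (idx N r k)) Y) :
    τ (W.bv N r e g * W.bv N r f h * Y) = 0 := by
  obtain ⟨k, l⟩ := e
  obtain ⟨k', l'⟩ := f
  rcases eq_or_ne k l with rfl | hkl
  · simp [bv, W.v_self]
  rcases eq_or_ne k' l' with rfl | hkl'
  · simp [bv, W.v_self]
  by_cases hsw : k' = l ∧ l' = k
  · obtain ⟨rfl, rfl⟩ := hsw
    simp [bv, W.v_mul_swap]
  have hne : ∀ {x y : Fin N}, x ≠ y → idx N r x ≠ idx N r y := fun h => idx_ne' h
  by_cases hk : k = k' ∨ k = l'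
  · have hl : l ≠ k' ∧ l ≠ l' := by
      constructor <;> intro e <;> rcases hk with h | h <;> subst h <;> subst e <;> simp_all
    exact flip_zero (c.tr τ hT) (W.saU _) (W.sqU _)
      (anti_mul_left (W.U_v_right (hne hkl) g) (W.commute_U_v (hne hl.1) (hne hl.2) h)) (hY l)
  · push Not at hk
    exact flip_zero (c.tr τ hT) (W.saU _) (W.sqU _)
      (anti_mul_left (W.U_v_left (hne hkl) g) (W.commute_U_v (hne hk.1) (hne hk.2) h)) (hY k)

lemma dev_orth (r : ℕ) (g h : G) {Y : A} (hY : ∀ k : Fin N, Commute (W.U (idx N r k)) Y) :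
    τ ((W.q N r g * W.q N r h - W.Kr N r g h) * Y) = 0 := by
  have e : W.q N r g * W.q N r h - W.Kr N r g h = (Fintype.card (Fin N × Fin N) : ℝ)⁻¹ •
      ∑ e : Fin N × Fin N, ∑ f ∈ univ.erase e, W.bv N r e g * W.bv N r f h := by
    simp only [sum_erase_eq_sub (mem_univ _), sum_sub_distrib, smul_sub]
    rw [q, q, smul_mul_assoc, mul_smul_comm, smul_smul, sum_mul_sum, Kr]
    simp
  rw [e]
  simp only [smul_mul_assoc, sum_mul, ← Complex.coe_smul, map_smul, map_sum, smul_eq_mul]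
  refine mul_eq_zero_of_right _ (sum_eq_zero fun e _ => sum_eq_zero fun f hf => ?_)
  exact W.cross_zero hT r (ne_of_mem_erase hf).symm g h hY

lemma sn_dev_mean (hN : 0 < N) (g h : G) :
    sn τ ((Fintype.card (Fin R) : ℝ)⁻¹ •
      ∑ r : Fin R, (W.q N r g * W.q N r h - W.Kr N r g h)) ≤ 512 * (N : ℝ) ^ 2 / Real.sqrt R := by
  have hN1 : (1 : ℝ) ≤ N := by exact_mod_cast hN
  refine (sn_mean_ortho (c.tr τ hT) (M := 512 * (N : ℝ) ^ 2) (by positivity) (fun r => ?_)
    fun r s hrs => ?_).trans (by rw [Fintype.card_fin])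
  · refine (norm_sub_le _ _).trans ?_
    have := norm_mul_le' (W.norm_q (N := N) r g) (W.norm_q (N := N) r h)
    have := W.norm_Kr (N := N) r g h
    nlinarith
  · rw [star_sub, star_mul, (W.q_sa r g).star_eq, (W.q_sa r h).star_eq, W.star_Kr]
    refine W.dev_orth hT r h g fun k => ?_
    have hrs' : (r : ℕ) ≠ s := fun e => hrs (Fin.ext e)
    have hv : ∀ a p, Commute (W.U (idx N r k)) (W.bv N s p a) := fun a p =>
      W.commute_U_v (idx_ne hrs' _ _) (idx_ne hrs' _ _) a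
    exact (((Commute.sum_right _ _ _ fun p _ => hv g p).smul_right _).mul_right
      ((Commute.sum_right _ _ _ fun p _ => hv h p).smul_right _)).sub_right
        ((Commute.sum_right _ _ _ fun p _ => (hv g p).mul_right (hv h p)).smul_right _)

lemma sn_Kbar_symm (g h : G) :
    sn τ (W.Kbar N R g h - W.Kbar N R h g) ≤ 1000 / Real.sqrt N := by
  rw [Kbar, Kbar, ← smul_sub, ← sum_sub_distrib]
  exact sn_mean_le (c.tr τ hT) (by positivity) fun r => W.sn_Kr_symm hT r g h

lemma sn_Kbar_diag (hN : 0 < N) (hR : 0 < R) (g : G) :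
    sn τ (W.Kbar N R g g - 1) ≤ 1000 / Real.sqrt N := by
  have e : W.Kbar N R g g - 1
      = (Fintype.card (Fin R) : ℝ)⁻¹ • ∑ r : Fin R, (W.Kr N r g g - 1) := by
    rw [Kbar, sum_sub_distrib, smul_sub, sum_const, card_univ, Fintype.card_fin,
      ← Nat.cast_smul_eq_nsmul ℝ, smul_smul, inv_mul_cancel₀ (by positivity), one_smul]
  rw [e]
  exact sn_mean_le (c.tr τ hT) (by positivity) fun r => W.sn_Kr_diag hT hN r g

/-- The mean anticommutator is the covariance. -/
lemma sn_anticomm_sub (hN : 0 < N) (g h : G) :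
    sn τ ((2 : ℝ)⁻¹ • (W.Sg N R g * W.Sg N R h + W.Sg N R h * W.Sg N R g) - W.Kbar N R g h) ≤
      512 * (N : ℝ) ^ 2 / Real.sqrt R + 500 / Real.sqrt N := by
  have ht := c.tr τ hT
  set cc : ℝ := (Fintype.card (Fin R) : ℝ)⁻¹
  have e : (2 : ℝ)⁻¹ • (W.Sg N R g * W.Sg N R h + W.Sg N R h * W.Sg N R g) - W.Kbar N R g h
      = (2 : ℝ)⁻¹ • (cc • ∑ r : Fin R, (W.q N r g * W.q N r h - W.Kr N r g h))
        + (2 : ℝ)⁻¹ • (cc • ∑ r : Fin R, (W.q N r h * W.q N r g - W.Kr N r h g))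
        + (2 : ℝ)⁻¹ • (W.Kbar N R h g - W.Kbar N R g h) := by
    rw [W.Sg_anticomm]
    simp only [Kbar, sum_add_distrib, sum_sub_distrib, smul_sub, smul_add]
    module
  rw [e]
  refine (ht.sn_add_le _ _).trans ((add_le_add ((ht.sn_add_le _ _).trans (add_le_add le_rfl le_rfl))
    le_rfl).trans ?_)
  simp only [ht.sn_smul_real (2 : ℝ)⁻¹]
  rw [show |(2 : ℝ)⁻¹| = 1 / 2 by norm_num]
  have h1 := W.sn_dev_mean (R := R) hT hN g h
  have h2 := W.sn_dev_mean (R := R) hT hN h g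
  have h3 := W.sn_Kbar_symm (N := N) (R := R) hT h g
  calc _ ≤ 1 / 2 * (512 * (N : ℝ) ^ 2 / Real.sqrt R) + 1 / 2 * (512 * (N : ℝ) ^ 2 / Real.sqrt R)
        + 1 / 2 * (1000 / Real.sqrt N) := by linarith
    _ = _ := by ring

omit hT in
/-- The averaged covariance is close to a positive element. -/
lemma exists_near_positive (g h : G) : ∃ B : A, ‖B‖ ≤ 8 ∧
    ∀ σ ∈ c.T, sn σ (W.Kbar N R g h - star B * B) ≤ 1000 / Real.sqrt N := by
  let := CStarAlgebra.spectralOrder A
  have := CStarAlgebra.spectralOrderedRing A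
  set cc : ℝ := (Fintype.card (Fin R) : ℝ)⁻¹ with hcc
  set y : Fin R → A := fun r => Real.sqrt (cc * 4) • W.am N r g h with hy
  obtain ⟨B, hB⟩ := CStarAlgebra.nonneg_iff_eq_star_mul_self.1
    (sum_nonneg fun r (_ : r ∈ univ) => star_mul_self_nonneg (y r))
  have e : star B * B = cc • ∑ r : Fin R, (4 : ℝ) • (star (W.am N r g h) * W.am N r g h) := by
    rw [← hB, smul_sum]
    refine sum_congr rfl fun r _ => ?_
    simp only [hy, star_smul, star_trivial, smul_mul_assoc, mul_smul_comm, smul_smul,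
      Real.mul_self_sqrt (show 0 ≤ cc * 4 by positivity)]
  refine ⟨B, ?_, fun σ hσ => ?_⟩
  · refine (pow_le_pow_iff_left₀ (norm_nonneg B) (by norm_num) two_ne_zero).1 ?_
    rw [sq, ← CStarRing.norm_star_mul_self, e]
    refine (norm_mean_le (show (0 : ℝ) ≤ 64 by norm_num) fun r => ?_).trans (by norm_num)
    rw [norm_smul, Real.norm_eq_abs, CStarRing.norm_star_mul_self]
    have := W.norm_am (N := N) r g h
    rw [show |(4 : ℝ)| = 4 by norm_num]
    nlinarith [norm_nonneg (W.am N r g h)]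
  · rw [e, Kbar, ← smul_sub, ← sum_sub_distrib]
    exact sn_mean_le (c.tr σ hσ) (by positivity) fun r => (W.sn_Kr_gram hσ r g h).trans
      (div_le_div_of_nonneg_right (by norm_num) (Real.sqrt_nonneg _))

end Vale.Agent.P095.Stage2.Units
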